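import Vale.Agent.P366DV.Defs
import Vale.Agent.P366M.Inv2

/-!
# P366RB: the static equations and the identity of Robinson; the statements
-/

open MeasureTheory Filter Topology Set
open scoped ContDiff
open Vale.Agent.P366 Vale.Agent.P366.Stmt

noncomputable section

namespace Vale.Agent.P366RB

variable {n : ℕ}

/-- `f` tends to `c` at the rate `q`, with two derivatives -/
structure O2 (q c : ℝ) (f : E n → ℝ) : Prop where
  sm : ∃ R, ∀ y, R < ‖y‖ → ContDiffAt ℝ ∞ f y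
  d0 : BigO q fun y => f y - c
  d1 : ∀ i, BigO (q + 1) (pd i f)
  d2 : ∀ i j, BigO (q + 1 + 1) (pd i (pd j f))

/-- **OC**: the calculus of `O2` -/
def OC : Prop := ∀ (n : ℕ) (q : ℝ), 0 < q → (∀ c, O2 q c fun _ : E n => c) ∧
  ∀ (a b : ℝ) (f h : E n → ℝ), O2 q a f → ((∃ R, ∀ y, R < ‖y‖ → h y = f y) → O2 q a h) ∧
    (O2 q b h → O2 q (a + b) (fun y => f y + h y) ∧ O2 q (a * b) fun y => f y * h y) ∧
    ∀ φ : ℝ → ℝ, (∀ᶠ t in 𝓝 a, ContDiffAt ℝ ∞ φ t) → O2 q (φ a) fun y => φ (f y)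

/-- the exponent `2 (n - 1) / (n - 2)` -/
abbrev ex (n : ℕ) : ℝ := 2 * ((n : ℝ) - 1) / (n - 2)

/-- **END**: the expansion of a harmonic function in an asymptotically Euclidean end -/
def END : Prop := ∀ (n : ℕ) (h : Field n) (V : E n → ℝ) (h0 : Matrix (Fin n) (Fin n) ℝ)
  (q m : ℝ), 3 ≤ n → (n : ℝ) / 2 - 1 < q → 0 < m → h0.PosDef →
  (∀ i j, O2 q (h0 i j) fun y => h y i j) → O2 q 1 V →
  (∃ R, ∀ y, R < ‖y‖ → (∀ i j, h y i j = h y j i) ∧ P366Z.lap h V y = 0) →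
  Tendsto (fun r => ∫ y, (∑ i, pd i (P366Z.cut r) y * P366Z.gr h V i y) * P366Z.dens h y) atTop
    (𝓝 (-((n - 2) * omega n * m))) →
  (∀ᶠ y in cocompact (E n), V y < 1) ∧
    Tendsto (fun y => P366Z.ip h V V y / (1 - V y ^ 2) ^ ex n) (cocompact (E n))
      (𝓝 (((n - 2) * m) ^ 2 / (2 * m) ^ ex n))

/-- **NEW**: the Euclidean core of `END` -/
def NEW : Prop := ∀ (n : ℕ) (v : E n → ℝ) (d : ℝ), 3 ≤ n → 0 < d → d < 1 → Smooth v →
  BigO (n + d) (P366Z.lap (P366Z.eu n) v) → Tendsto v (cocompact (E n)) (𝓝 0) →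
  ∃ β, BigO (n - 2 + d) (fun y => v y - β * ‖y‖ ^ (2 - n : ℝ)) ∧
    ∀ i, BigO (n - 1 + d) fun y => pd i v y + (n - 2) * β * y i * ‖y‖ ^ (-n : ℝ)

/-- the squared length of `X` -/
def sq (g : Field n) (X : Fin n → E n → ℝ) (y : E n) : ℝ := ∑ i, ∑ j, g y i j * X i y * X j y

/-- the covector of `X` -/
def lo (g : Field n) (X : Fin n → E n → ℝ) (i : Fin n) (y : E n) : ℝ := ∑ j, g y i j * X j y

/-- the static potential -/
def pot (g : Field n) (N : E n → ℝ) (X : Fin n → E n → ℝ) (y : E n) : ℝ := √(N y ^ 2 - sq g X y)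

/-- the metric of the quotient -/
def quo (g : Field n) (N : E n → ℝ) (X : Fin n → E n → ℝ) : Field n := fun y i j =>
  g y i j + lo g X i y * lo g X j y / (N y ^ 2 - sq g X y)

/-- the covariant derivative of a 2-tensor -/
def cK (g K : Field n) (k i j : Fin n) (y : E n) : ℝ :=
  pd k (fun z => K z i j) y - ∑ l, (chr g l k i y * K y l j + chr g l k j y * K y i l)

/-- static Killing initial data at the point `y` -/
structure Kid (g K a : Field n) (N : E n → ℝ) (X p : Fin n → E n → ℝ) (y : E n) : Prop where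
  smN : ContDiffAt ℝ ∞ N y
  smX : ∀ i, ContDiffAt ℝ ∞ (X i) y
  smp : ∀ i, ContDiffAt ℝ ∞ (p i) y
  N0 : 0 < N y
  l0 : sq g X y < N y ^ 2
  dN : ∀ i, pd i N y = p i y - ∑ j, K y i j * X j y
  dX : ∀ i j, ∑ k, g y j k * (pd i (X k) y + ∑ l, chr g k i l y * X l y) = a y i j - N y * K y i j
  dp : ∀ i j, pd i (p j) y - ∑ l, chr g l i j y * p l y =
    N y * (P366Y.C.rc g y i j + tr g K y * K y i j - ∑ k, ∑ l, up g k l y * K y i k * K y l j) +
      ∑ k, X k y * (cK g K i j k y - cK g K k i j y) - ∑ k, ∑ l, up g k l y * K y i k * a y j l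
  dv : ∑ i, ∑ j, up g i j y * (pd i (p j) y - ∑ l, chr g l i j y * p l y) = 0
  st : ∀ i j, N y * a y i j = p i y * lo g X j y - lo g X i y * p j y

/-- **STA**: the static equations -/
def STA : Prop := ∀ (n : ℕ) (g K a : Field n) (N : E n → ℝ) (X p : Fin n → E n → ℝ) (y : E n),
  P366Z.Met g → (∀ i j, Smooth fun z => K z i j) → (∀ z i j, K z i j = K z j i) →
  (∀ᶠ z in 𝓝 y, Kid g K a N X p z) →
  P366Z.lap (quo g N X) (pot g N X) y = 0 ∧
    (∀ i j, pot g N X y * P366Y.C.rc (quo g N X) y i j = hess (quo g N X) (pot g N X) y i j) ∧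
    (∀ i, N y * P366Z.gr (quo g N X) (pot g N X) i y = pot g N X y * ∑ j, up g i j y * p j y) ∧
    pot g N X y * P366Z.dens (quo g N X) y = N y * P366Z.dens g y ∧
    P366Z.ip (quo g N X) (pot g N X) (pot g N X) y =
      ∑ i, ∑ j, up g i j y * p i y * p j y - normSq g a y / 2

open P366M P366DV in
/-- **ROB**: the identity of Robinson -/
def ROB : Prop := ∀ (n : ℕ) (M : Type) [Mfe n M] (U : Set M) (h : Fld n M) (V : M → ℝ) (κ : ℝ),
  3 ≤ n → MOn h U → Out U V 0 → IsPreconnected U →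
  (∀ x ∈ U, CAt ∞ V x ∧ lap h V x = 0 ∧ ∀ i j, V x * ric h x i j = P366M.hess h V x i j) →
  (∀ e > 0, ∃ d > 0, ∀ x ∈ U, V x ≤ d → ip h V V x ≤ κ ^ 2 + e) →
  Tendsto V (cocompact M) (𝓝 1) → (∀ᶠ x in cocompact M, V x < 1) →
  Tendsto (fun x => ip h V V x / (1 - V x ^ 2) ^ ex n) (cocompact M) (𝓝 (κ ^ 2)) →
  ∀ x ∈ U, V x < 1 ∧ ip h V V x = κ ^ 2 * (1 - V x ^ 2) ^ ex n ∧
    ∀ i j, P366M.hess h V x i j = -(2 * n * V x / ((n - 2) * (1 - V x ^ 2))) *
      (P366M.pd i V x * P366M.pd j V x - ip h V V x / n * h x i j)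

end Vale.Agent.P366RB
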