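import Vale.Agent.P366K.Defs

/-!
P366RB: the system of second order for the multiplier in a chart; the statement.
-/

open Vale.Agent.P366.Stmt Vale.Agent.P366Z Vale.Agent.P366K.C
open Vale.Agent.P366Y.C (Sy)

noncomputable section

namespace Vale.Agent.P366RB

variable {n : ℕ}

/-- The components: N, and the covector of X. -/
def th (g : Field n) (x : E n) (N : ℝ) (X : Fin n → ℝ) : Option (Fin n) → ℝ
  | none => N
  | some c => ∑ j, g x c j * X j

/-- **WSY**: variations which produce the second derivatives of a test function. -/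
def WSY : Prop := ∀ (n : ℕ) (g K : Field n), 2 ≤ n → Met g → Sy K →
  ∃ (A : Option (Fin n) → Fin n → Fin n → Option (Fin n) → Fin n → E n → ℝ)
    (B : Option (Fin n) → Fin n → Fin n → Option (Fin n) → E n → ℝ),
    (∀ α a b β l, Smooth (A α a b β l)) ∧ (∀ α a b β, Smooth (B α a b β)) ∧
    ∀ α a b φ, Smooth φ → ∃ h k, Sy h ∧ Sy k ∧ (∀ x ∉ tsupport φ, h x = 0 ∧ k x = 0) ∧
      (∀ x N (X : Fin n → ℝ), N * Lmu g K h k x + ∑ j, X j * Lmo g K h k j x =
        th g x N X α * pd a (pd b φ) x -
          ∑ β, th g x N X β * (∑ l, A α a b β l x * pd l φ x + B α a b β x * φ x)) ∧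
      ∀ x (ν : Fin n → ℝ), ∑ i, ∑ j, g x i j * ν i * ν j = 1 →
        (tr g h x - ∑ i, ∑ j, h x i j * ν i * ν j) / 2 =
          if α = none then -(φ x * th g x 1 ν (some a) * th g x 1 ν (some b)) else 0

end Vale.Agent.P366RB
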