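import Vale.Agent.P366K2.Defs

/-!
P366RB: the boundary estimate; the statement with a ball inside the domain.
-/

open MeasureTheory Metric Filter Topology Set
open scoped ContDiff NNReal
open Vale.Agent.P366.Stmt Vale.Agent.P366K2

namespace Vale.Agent.P366RB

/-- REGB with the closed ball of the trace condition inside U. -/
def REGB2 : Prop := ∀ (n : ℕ) (ι W : Type) [Fintype ι] [MeasurableSpace W] (s : Sy n ι W) U f
  (i : Fin n) (β : Measure (E n)) (b : ι → E n → ℝ) (x : E n), s.Ok U →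
  s.Wk (U ∩ {y | 0 < y i}) → s.Rep (U ∩ {y | 0 < y i}) f → IsFiniteMeasure β →
  (∀ α a φ, Tst (U ∩ {y | 0 < y i}) φ → |s.df α i a φ| ≤ ∫ y, |φ y| ∂β) →
  (∀ α, ContDiffOn ℝ ∞ (b α) U) → (∀ y ∈ U, b s.o y = 1) →
  (∀ w, s.π w ∈ U → 0 ≤ ∑ α, b α (s.π w) * s.θ α w) → x ∈ U → x i = 0 →
  (∃ r > 0, closedBall x r ⊆ U ∧ Tendsto (fun ε : ℝ => ε⁻¹ *
    ∫ w in s.π ⁻¹' {y | y ∈ ball x r ∧ y i ∈ Icc ε (2 * ε)}, ∑ α, b α (s.π w) * s.θ α w ∂s.m)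
      (𝓝[>] 0) (𝓝 0)) →
  ∃ r > 0, ∃ L : ℝ≥0, ∀ α, LipschitzOnWith L (f α) (ball x r ∩ {y | 0 < y i})

end Vale.Agent.P366RB
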