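import Vale.Agent.P366RB.Sta2
import Vale.Agent.P366OC.Oc
import Vale.Agent.P366SB.Defs
import Vale.Agent.P366M.End4

/-!
# P366RB: from static Killing initial data on a manifold to the output of the identity of Robinson
-/

open MeasureTheory Filter Topology Set
open scoped ContDiff
open Vale.Agent.P366 Vale.Agent.P366M Vale.Agent.P366DV Vale.Agent.P366SB Vale.Agent.P366OC
open Vale.Agent.P366.Stmt (E Field BigO omega)

noncomputable section

namespace Vale.Agent.P366RB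

variable {n : ℕ} {M : Type}

/-- the static potential -/
def Vm (g : Fld n M) (N : M → ℝ) (X : Fin n → M → ℝ) (x : M) : ℝ :=
  √(N x ^ 2 - ∑ i, ∑ j, g x i j * X i x * X j x)

/-- the metric of the quotient -/
def hm (g : Fld n M) (N : M → ℝ) (X : Fin n → M → ℝ) : Fld n M := fun x i j =>
  g x i j + (∑ k, g x i k * X k x) * (∑ k, g x j k * X k x) /
    (N x ^ 2 - ∑ i, ∑ j, g x i j * X i x * X j x)

theorem pos_add {A : Matrix (Fin n) (Fin n) ℝ} (hA : A.PosDef) (v : Fin n → ℝ) {c : ℝ}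
    (hc : 0 < c) : Matrix.PosDef (Matrix.of fun i j => A i j + v i * v j / c) := by
  have h := hA.add_posSemidef ((Matrix.posSemidef_vecMulVec_self_star v).smul (inv_pos.2 hc).le)
  have e : (Matrix.of fun i j => A i j + v i * v j / c) = A + c⁻¹ • Matrix.vecMulVec v (star v) := by
    ext i j
    simp [Matrix.vecMulVec_apply, div_eq_inv_mul]
  rwa [e]

section L0

variable [Mf0 n M] {g K : Fld n M} {N : M → ℝ} {X : Fin n → M → ℝ} {x : M} {e : Ch n M}

theorem loc_Vm (he : e ∈ At M) : loc e (Vm g N X) = pot (rep e g) (loc e N) (repV e X) :=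
  funext fun y => by rw [pot, sq, quad_rep he]; rfl

theorem rep_hm (he : e ∈ At M) : rep e (hm g N X) = quo (rep e g) (loc e N) (repV e X) := by
  have h : hm g N X = fun x i j => g x i j +
      (N x ^ 2 - ∑ i, ∑ j, g x i j * X i x * X j x)⁻¹ *
        ((∑ k, g x i k * X k x) * ∑ k, g x j k * X k x) := by
    funext x i j
    rw [hm, div_eq_inv_mul]
  rw [h, rep_add, rep_smul, rep_prod e (fun i x => ∑ k, g x i k * X k x)
    fun i x => ∑ k, g x i k * X k x, lower_rep he, quo_eq]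
  funext y i j
  rw [lam, sq, quad_rep he]; rfl

theorem kid_at (hg : Met g) (sK : SmT K) (hK : ∀ x i j, K x i j = K x j i)
    (k : KidAt g K N X x) : 0 < N x ∧ ∑ i, ∑ j, g x i j * X i x * X j x < N x ^ 2 ∧
    CAt ∞ (Vm g N X) x ∧ (∀ i j, ContDiffAt ℝ ∞ (fun y => rep (ch x) (hm g N X) y i j) (pt x)) ∧
    lap (hm g N X) (Vm g N X) x = 0 ∧
    (∀ i j, Vm g N X x * ric (hm g N X) x i j = hess (hm g N X) (Vm g N X) x i j) ∧
    (∀ i, N x * gr (hm g N X) (Vm g N X) i x =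
      Vm g N X x * ∑ j, up g i j x * (pd j N x + ∑ l, K x j l * X l x)) ∧
    Vm g N X x * √(mat (hm g N X) x).det = N x * √(mat g x).det := by
  obtain ⟨a, p, ev⟩ := k
  have he := ch_mem x
  have k := ev.self_of_nhds
  obtain ⟨h1, h2, h3, h4, -⟩ := sta n _ _ a _ _ p _ (hg.rep he) (sK _ he) (rep_sy hK _) ev
  have h5 := k.cd_pot (hg.rep he)
  have h6 := k.cd_quo (hg.rep he)
  have h7 := k.l0
  have h8 := k.dN
  rw [← loc_Vm he, ← rep_hm he] at h1 h2 h3 h4
  rw [← loc_Vm he] at h5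
  rw [← rep_hm he] at h6
  simp only [sq, rep_pt, repV_pt, loc_pt] at h7 h8
  refine ⟨by simpa using k.N0, h7, h5, h6, h1, fun i j => ?_, fun i => ?_, ?_⟩
  · have := h2 i j
    rwa [loc_pt] at this
  · have := h3 i
    simp only [loc_pt, gr_pt, up_pt] at this
    rw [this]
    congr 2
    funext j
    rw [show pd j N x = _ from h8 j, sub_add_cancel]
  · simpa only [P366Z.dens, mat_pt, loc_pt] using h4

theorem mon (hg : Met g) (sK : SmT K) (hK : ∀ x i j, K x i j = K x j i) {U : Set M}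
    (hU : IsOpen U) (k : ∀ x ∈ U, KidAt g K N X x) : MOn (hm g N X) U :=
  ⟨hU, fun x hx => (kid_at hg sK hK (k x hx)).2.2.2.1,
    fun x _ i j => by rw [hm, hm, hg.sy x i j, mul_comm (∑ k, g x i k * X k x)],
    fun x hx => pos_add (hg.pos x) (fun i => ∑ k, g x i k * X k x)
      (sub_pos.2 (kid_at hg sK hK (k x hx)).2.1)⟩

end L0

theorem o_const (q c : ℝ) (hq : 0 < q) : O2 q c fun _ : E n => c := (oc n q hq).1 c

theorem o_sum {ι : Type} {q : ℝ} (hq : 0 < q) (s : Finset ι) {c : ι → ℝ} {f : ι → E n → ℝ}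
    (h : ∀ i, O2 q (c i) (f i)) : O2 q (∑ i ∈ s, c i) fun y => ∑ i ∈ s, f i y := by
  classical
  induction s using Finset.induction_on with
  | empty => simpa using o_const q 0 hq
  | insert a s ha ih => simpa only [Finset.sum_insert ha] using o_add (h a) ih

theorem o_mono {q q' c : ℝ} {f : E n → ℝ} (h : O2 q c f) (e : q' ≤ q) : O2 q' c f :=
  ⟨h.sm, bo_mono h.d0 e, fun i => bo_mono (h.d1 i) (by linarith),
    fun i j => bo_mono (h.d2 i j) (by linarith)⟩

theorem o_quo {q N0 : ℝ} {X0 : Fin n → ℝ} {g : Field n} {N : E n → ℝ} {X : Fin n → E n → ℝ}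
    (hq : 0 < q) (hg : ∀ i j, O2 q (if i = j then 1 else 0) fun y => g y i j) (hN : O2 q N0 N)
    (hX : ∀ i, O2 q (X0 i) (X i)) (h1 : N0 ^ 2 - ∑ i, X0 i ^ 2 = 1) :
    O2 q 1 (pot g N X) ∧ ∀ i j, O2 q ((1 : Matrix (Fin n) (Fin n) ℝ) i j + X0 i * X0 j / 1)
      fun y => quo g N X y i j := by
  have a1 : ∀ i, O2 q (X0 i) (lo g X i) := fun i => by
    have := o_sum hq Finset.univ fun j => o_mul hq (hg i j) (hX j)
    rw [show ∑ j, (if i = j then 1 else 0) * X0 j = X0 i by simp] at this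
    exact this
  have a2 : O2 q 1 (lam g N X) := by
    have := o_add (o_mul hq hN hN) (o_mul hq (o_const q (-1) hq)
      (o_sum hq Finset.univ fun i => o_mul hq (a1 i) (hX i)))
    rw [show N0 * N0 + -1 * ∑ i, X0 i * X0 i = 1 by simp only [← pow_two]; linarith] at this
    exact o_congr this (.of_forall fun y => by rw [lam, sq_eq, dt]; ring)
  refine ⟨?_, fun i j => ?_⟩
  · have := o_comp hq a2 (φ := fun t => √t) ((lt_mem_nhds one_pos).mono fun t ht =>
      contDiffAt_id.sqrt ht.ne')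
    rwa [Real.sqrt_one] at this
  · have := o_add (hg i j) (o_mul hq (o_comp hq a2 (φ := fun t => t⁻¹)
      ((lt_mem_nhds one_pos).mono fun t ht => contDiffAt_id.inv ht.ne')) (o_mul hq (a1 i) (a1 j)))
    rw [quo_eq, Matrix.one_apply, div_eq_inv_mul]
    exact this

theorem kap {κ : ℝ} (hn : 3 ≤ n) (hκ : 0 < κ) :
    0 < ms n κ ∧ ((n - 2) * ms n κ) ^ 2 / (2 * ms n κ) ^ ex n = κ ^ 2 := by
  have hn' : (3 : ℝ) ≤ n := by exact_mod_cast hn
  have h2 : (0 : ℝ) < n - 2 := by linarith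
  have hr : 0 < (n - 2) / (2 * κ) := by positivity
  have h3 := Real.rpow_pos_of_pos hr ((n : ℝ) - 2)
  refine ⟨half_pos h3, ?_⟩
  have e : (2 * ms n κ) ^ ex n =
      (((n - 2) / (2 * κ)) ^ ((n : ℝ) - 2)) ^ 2 * ((n - 2) / (2 * κ)) ^ 2 := by
    rw [ms, mul_div_cancel₀ _ two_ne_zero, ← Real.rpow_mul hr.le, ← Real.rpow_two,
      ← Real.rpow_two, ← Real.rpow_mul hr.le, ← Real.rpow_add hr]
    congr 1
    rw [ex]
    field_simp
    ring
  rw [e, ms]
  field_simp

variable [Mfe n M]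

/-- the flux of Komar in the coordinates of the end -/
def kom (D : Exterior n M) (N : M → ℝ) (X : Fin n → M → ℝ) (r : ℝ) : ℝ :=
  ∫ y, (∑ i, Stmt.pd i (P366Z.cut r) y * ∑ j, Stmt.up (fe D.g) i j y *
    (Stmt.pd j (fe N) y + ∑ l, fe D.K y j l * fe (X l) y)) * P366Z.dens (fe D.g) y

theorem stat_of (hE : END) (hR : ROB) (hn : 3 ≤ n) (D : Exterior n M) {N : M → ℝ}
    {X : Fin n → M → ℝ} {U : Set M} {q κ N0 : ℝ} {X0 : Fin n → ℝ} (hq : (n : ℝ) / 2 - 1 < q)
    (hκ : 0 < κ) (hU : IsOpen U) (hc : IsPreconnected U) (k : ∀ x ∈ U, KidAt D.g D.K N X x)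
    (ho : Out U (Vm D.g N X) 0)
    (hl : ∀ e > 0, ∃ d > 0, ∀ x ∈ U, Vm D.g N X x ≤ d →
      ip (hm D.g N X) (Vm D.g N X) (Vm D.g N X) x ≤ κ ^ 2 + e)
    (hg : ∀ i j, O2 q (if i = j then 1 else 0) fun y => fe D.g y i j) (hN : O2 q N0 (fe N))
    (hX : ∀ i, O2 q (X0 i) (fe (X i))) (h1 : N0 ^ 2 - ∑ i, X0 i ^ 2 = 1)
    (hk : Tendsto (kom D N X) atTop (𝓝 (-((n - 2) * omega n * ms n κ)))) :
    Stat U (hm D.g N X) (Vm D.g N X) κ q := by
  have hn' : (3 : ℝ) ≤ n := by exact_mod_cast hn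
  have q0 : 0 < q := by linarith
  have ka := fun x hx => kid_at D.met D.smK D.syK (k x hx)
  have mo := mon D.met D.smK D.syK hU k
  obtain ⟨oV, oh⟩ := o_quo q0 hg hN hX h1
  obtain ⟨R, hR'⟩ := ho.far
  have far : ∀ y : E n, max R (R0 M) < ‖y‖ → R0 M < ‖y‖ ∧ (yp y : M) ∈ U := fun y hy => by
    have b := (le_max_right _ _).trans_lt hy
    exact ⟨b, hR' _ (by rw [px_yp (by linarith)]; exact (le_max_left _ _).trans_lt hy)⟩
  have p0 := pos_add (Matrix.PosDef.one (n := Fin n) (R := ℝ)) X0 one_pos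
  obtain ⟨e1, e2⟩ := hE n (fe (hm D.g N X)) (fe (Vm D.g N X)) _ q (ms n κ) hn hq (kap hn hκ).1 p0
    oh oV ⟨_, fun y hy => ⟨mo.sy _ (far y hy).2,
      (lap_ye (far y hy).1 _ _).symm.trans (ka _ (far y hy).2).2.2.2.2.1⟩⟩ (hk.congr' (by
      filter_upwards [eventually_gt_atTop (max R (R0 M))] with r hr
      refine integral_congr_ae (.of_forall fun y => ?_)
      rcases lt_or_ge ‖y‖ r with hy | hy
      · simp only [P366Z.pd_cut_in hy, zero_mul, Finset.sum_const_zero]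
      · obtain ⟨b1, b2⟩ := far y (hr.trans_le hy)
        obtain ⟨c1, c2, -, -, -, -, c3, c4⟩ := ka _ b2
        have c5 : 0 < Vm D.g N X (yp y) := Real.sqrt_pos.2 (sub_pos.2 c2)
        beta_reduce
        rw [Finset.sum_mul, Finset.sum_mul]
        refine Finset.sum_congr rfl fun i _ => ?_
        rw [mul_assoc, mul_assoc]
        refine congrArg _ ?_
        have c6 := c3 i
        simp only [yp, gr_ye b1.le, pd_ye b1.le] at c6
        refine mul_left_cancel₀ (mul_pos c1 c5).ne' ?_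
        have c7 : Vm D.g N X (yp y) * P366Z.dens (fe (hm D.g N X)) y =
          N (yp y) * P366Z.dens (fe D.g) y := c4
        have c8 : N (yp y) * P366Z.gr (fe (hm D.g N X)) (fe (Vm D.g N X)) i y =
          Vm D.g N X (yp y) * ∑ j, Stmt.up (fe D.g) i j y *
            (Stmt.pd j (fe N) y + ∑ l, fe D.K y j l * fe (X l) y) := c6
        linear_combination (-(N (yp y) * P366Z.gr (fe (hm D.g N X)) (fe (Vm D.g N X)) i y)) * c7 -
          (N (yp y) * P366Z.dens (fe D.g) y) * c8))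
  rw [(kap hn hκ).2] at e2
  have t1 : Tendsto (fe (Vm D.g N X)) (cocompact (E n)) (𝓝 1) :=
    (lim q0 oV.d0).mono_left (tendsto_iff_comap.1 (tendsto_norm_cocompact_atTop (E := E n)))
  have r := hR n M U _ _ κ hn mo ho hc (fun x hx => ⟨(ka x hx).2.2.1, (ka x hx).2.2.2.2.1,
    (ka x hx).2.2.2.2.2.1⟩) hl (tendsto_fe.2 t1) (ev_cocompact_iff.2 fun j => by
      rw [Mfe.one j]; exact e1) (tendsto_fe.2 (e2.congr' (ev_cocompactE.2 ⟨R0 M, fun y hy => by
        have := ip_ye (j := Mfe.o) hy (hm D.g N X) (Vm D.g N X) (Vm D.g N X)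
        exact congrArg (· / _) this.symm⟩)))
  exact ⟨mo, ho, hκ, q0, ⟨_, p0, fun i j l => ⟨(oh i j).d0, (oh i j).d1 l⟩⟩, oV.d0, oV.d1,
    fun x hx => (ka x hx).2.2.1, fun x hx => (r x hx).1, fun x hx => (r x hx).2.1,
    fun x hx => (r x hx).2.2⟩

theorem o_met (D : Exterior n M) (h : D.IsAF) : ∃ q : ℝ, (n : ℝ) / 2 - 1 < q ∧
    ∀ i j, O2 q (if i = j then 1 else 0) fun y => fe D.g y i j :=
  let ⟨q, hq, h⟩ := h
  ⟨q, hq, fun i j => ⟨⟨_, fun _ hy => D.met.sm.fj_at hy i j⟩, (h i j i i).1,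
    fun k => (h i j k k).2.1, fun l k => (h i j k l).2.2.1⟩⟩

end Vale.Agent.P366RB
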