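import Vale.Agent.P366RB.Defs
import Vale.Agent.P366Z.Calc3

/-!
# P366RB: covariant derivatives in coordinates; the difference of two connections
-/

open Filter Topology Set
open scoped ContDiff
open Vale.Agent.P366 Vale.Agent.P366.Stmt Vale.Agent.P366Z

noncomputable section

namespace Vale.Agent.P366RB

variable {n : ℕ} {g h B : Field n} {y : E n} {A w z : Fin n → E n → ℝ} {f : E n → ℝ}
  {C : Fin n → Fin n → Fin n → E n → ℝ}

/-- the covariant derivative of a vector field -/
def cV (g : Field n) (A : Fin n → E n → ℝ) (m k : Fin n) (y : E n) : ℝ :=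
  pd m (A k) y + ∑ l, chr g k m l y * A l y

/-- the covariant derivative of a covector field -/
def cC (g : Field n) (w : Fin n → E n → ℝ) (m i : Fin n) (y : E n) : ℝ :=
  pd m (w i) y - ∑ l, chr g l m i y * w l y

/-- the covariant derivative of a tensor with one upper index and two lower indices -/
def cM (g : Field n) (C : Fin n → Fin n → Fin n → E n → ℝ) (m k i j : Fin n) (y : E n) : ℝ :=
  pd m (C k i j) y + ∑ l, (chr g k m l y * C l i j y - chr g l m i y * C k l j y -
    chr g l m j y * C k i l y)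

/-- differentiable at the point -/
abbrev Df (f : E n → ℝ) (y : E n) : Prop := DifferentiableAt ℝ f y

theorem cC_congr (e : ∀ i, w i =ᶠ[𝓝 y] z i) (m i : Fin n) : cC g w m i y = cC g z m i y := by
  simp only [cC, pd_congr (e i), fun l => (e l).eq_of_nhds]

theorem cC_add (hw : ∀ i, Df (w i) y) (hz : ∀ i, Df (z i) y) (m i : Fin n) :
    cC g (fun i x => w i x + z i x) m i y = cC g w m i y + cC g z m i y := by
  simp only [cC, pd_add (hw i) (hz i), mul_add, Finset.sum_add_distrib]
  ring

theorem cC_smul (hf : Df f y) (hw : ∀ i, Df (w i) y) (m i : Fin n) :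
    cC g (fun i x => f x * w i x) m i y = pd m f y * w i y + f y * cC g w m i y := by
  simp only [cC, pd_mul hf (hw i), mul_sub, Finset.mul_sum, mul_left_comm _ (f y)]
  ring

theorem cK_add {B' : Field n} (hB : ∀ i j, Df (fun x => B x i j) y)
    (hB' : ∀ i j, Df (fun x => B' x i j) y) (m i j : Fin n) :
    cK g (fun x i j => B x i j + B' x i j) m i j y = cK g B m i j y + cK g B' m i j y := by
  simp only [cK, pd_add (hB i j) (hB' i j), mul_add, Finset.sum_add_distrib]
  ring

theorem cK_smul (hf : Df f y) (hB : ∀ i j, Df (fun x => B x i j) y) (m i j : Fin n) :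
    cK g (fun x i j => f x * B x i j) m i j y = pd m f y * B y i j + f y * cK g B m i j y := by
  simp only [cK, pd_mul hf (hB i j), mul_sub, mul_add, Finset.mul_sum, mul_left_comm _ (f y)]
  ring

theorem cK_prod (hw : ∀ i, Df (w i) y) (hz : ∀ i, Df (z i) y) (m i j : Fin n) :
    cK g (fun x i j => w i x * z j x) m i j y = cC g w m i y * z j y + w i y * cC g z m j y := by
  simp only [cK, cC, pd_mul (hw i) (hz j), mul_sub, sub_mul, Finset.mul_sum, Finset.sum_mul,
    Finset.sum_add_distrib, mul_left_comm _ (w i y), mul_assoc]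
  ring

theorem cK_g (hg : Met g) (m i j : Fin n) : cK g g m i j y = 0 := by
  rw [cK, hg.pd_g, ← Finset.sum_add_distrib, sub_eq_zero]
  exact Finset.sum_congr rfl fun l _ => by rw [hg.sy y j l]; ring

theorem cM_add {C' : Fin n → Fin n → Fin n → E n → ℝ} (hC : ∀ k i j, Df (C k i j) y)
    (hC' : ∀ k i j, Df (C' k i j) y) (m k i j : Fin n) :
    cM g (fun k i j x => C k i j x + C' k i j x) m k i j y =
      cM g C m k i j y + cM g C' m k i j y := by
  simp only [cM, pd_add (hC k i j) (hC' k i j), mul_add, Finset.sum_add_distrib,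
    Finset.sum_sub_distrib]
  ring

theorem cM_prod (hA : ∀ i, Df (A i) y) (hB : ∀ i j, Df (fun x => B x i j) y) (m k i j : Fin n) :
    cM g (fun k i j x => A k x * B x i j) m k i j y =
      cV g A m k y * B y i j + A k y * cK g B m i j y := by
  simp only [cM, cV, cK, pd_mul (hA k) (hB i j), mul_sub, mul_add, add_mul, Finset.mul_sum,
    Finset.sum_mul, Finset.sum_add_distrib, Finset.sum_sub_distrib, mul_left_comm _ (A k y),
    mul_assoc]
  ring

theorem pd_dot (hw : ∀ i, Df (w i) y) (hA : ∀ i, Df (A i) y) (m : Fin n) :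
    pd m (fun x => ∑ i, w i x * A i x) y =
      ∑ i, cC g w m i y * A i y + ∑ i, w i y * cV g A m i y := by
  rw [pd_sum _ fun i _ => (hw i).fun_mul (hA i)]
  simp only [cC, cV, pd_mul (hw _) (hA _), mul_add, sub_mul, Finset.sum_add_distrib,
    Finset.sum_sub_distrib, Finset.mul_sum, Finset.sum_mul]
  have : ∑ i, ∑ l, chr g l m i y * w l y * A i y = ∑ i, ∑ l, w i y * (chr g i m l y * A l y) := by
    rw [Finset.sum_comm]
    exact Finset.sum_congr rfl fun _ _ => Finset.sum_congr rfl fun _ _ => by ring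
  rw [this]; ring

theorem cC_con (hB : ∀ i j, Df (fun x => B x i j) y) (hA : ∀ i, Df (A i) y) (m j : Fin n) :
    cC g (fun j x => ∑ k, B x j k * A k x) m j y =
      ∑ k, cK g B m j k y * A k y + ∑ k, B y j k * cV g A m k y := by
  rw [cC, pd_sum _ fun k _ => (hB j k).fun_mul (hA k)]
  simp only [cK, cV, pd_mul (hB _ _) (hA _), mul_add, add_mul, sub_mul, Finset.sum_add_distrib,
    Finset.sum_sub_distrib, Finset.mul_sum, Finset.sum_mul]
  have e1 : ∑ k, ∑ l, chr g l m k y * B y j l * A k y =
      ∑ k, ∑ l, B y j k * (chr g k m l y * A l y) := by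
    rw [Finset.sum_comm]
    exact Finset.sum_congr rfl fun _ _ => Finset.sum_congr rfl fun _ _ => by ring
  have e2 : ∑ k, ∑ l, chr g l m j y * B y l k * A k y =
      ∑ l, ∑ k, chr g l m j y * (B y l k * A k y) := by
    rw [Finset.sum_comm]
    exact Finset.sum_congr rfl fun _ _ => Finset.sum_congr rfl fun _ _ => by ring
  rw [e1, e2]; ring

theorem cC_lo (hg : Met g) (hA : ∀ i, Df (A i) y) (m j : Fin n) :
    cC g (lo g A) m j y = ∑ k, g y j k * cV g A m k y := by
  have := cC_con (g := g) (B := g) (fun i j => (hg.sm i j).diff y) hA m j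
  simp only [cK_g hg, zero_mul, Finset.sum_const_zero, zero_add] at this
  exact this

/-- the vector of `w` -/
def hi (g : Field n) (w : Fin n → E n → ℝ) (i : Fin n) (y : E n) : ℝ := ∑ j, up g i j y * w j y

theorem df_lo (hg : Met g) (hA : ∀ i, Df (A i) y) (i : Fin n) : Df (lo g A i) y :=
  DifferentiableAt.fun_sum fun j _ => ((hg.sm i j).diff y).fun_mul (hA j)

theorem df_hi (hg : Met g) (hw : ∀ i, Df (w i) y) (i : Fin n) : Df (hi g w i) y :=
  DifferentiableAt.fun_sum fun j _ => ((hg.sm_up i j).diff y).fun_mul (hw j)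

theorem lo_hi (hg : Met g) (w : Fin n → E n → ℝ) : lo g (hi g w) = w :=
  funext fun i => funext fun y => hg.g_up_mul y i fun j => w j y

theorem hi_lo (hg : Met g) (A : Fin n → E n → ℝ) : hi g (lo g A) = A :=
  funext fun i => funext fun y => hg.up_g_mul y i fun j => A j y

theorem cV_hi (hg : Met g) (hw : ∀ i, Df (w i) y) (m k : Fin n) :
    cV g (hi g w) m k y = ∑ l, up g k l y * cC g w m l y := by
  have h := fun l => cC_lo hg (df_hi hg hw) m l
  rw [lo_hi hg] at h
  simp only [h]
  exact (hg.up_g_mul y k fun j => cV g (hi g w) m j y).symm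

/-- the Christoffel symbols of a second metric -/
theorem chr_sub (hg : Met g) (hs : ∀ i j, h y i j = h y j i)
    (hu : ∀ i j, ∑ k, up h i k y * h y k j = if i = j then 1 else 0) (k i j : Fin n) :
    chr h k i j y = chr g k i j y +
      (∑ l, up h k l y * (cK g h i j l y + cK g h j i l y - cK g h l i j y)) / 2 := by
  have e1 : ∀ l, pd i (fun x => h x j l) y + pd j (fun x => h x i l) y - pd l (fun x => h x i j) y =
      cK g h i j l y + cK g h j i l y - cK g h l i j y + 2 * ∑ m, h y l m * chr g m i j y := by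
    intro l
    simp only [cK, Finset.sum_add_distrib, Finset.mul_sum]
    have a1 : ∑ m, chr g m i j y * h y m l = ∑ m, h y l m * chr g m i j y :=
      Finset.sum_congr rfl fun m _ => by rw [hs m l]; ring
    have a2 : ∑ m, chr g m j i y * h y m l = ∑ m, h y l m * chr g m i j y :=
      Finset.sum_congr rfl fun m _ => by rw [hs m l, hg.chr_sy m j i]; ring
    have a3 : ∑ m, chr g m i l y * h y j m = ∑ m, chr g m l i y * h y m j :=
      Finset.sum_congr rfl fun m _ => by rw [hs m j, hg.chr_sy m i l]
    have a4 : ∑ m, chr g m j l y * h y i m = ∑ m, chr g m l j y * h y i m :=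
      Finset.sum_congr rfl fun m _ => by rw [hg.chr_sy m j l]
    rw [a1, a2, a3, a4, ← Finset.mul_sum]; ring
  have e2 : ∑ l, up h k l y * (2 * ∑ m, h y l m * chr g m i j y) = 2 * chr g k i j y := by
    simp only [mul_left_comm _ (2 : ℝ), ← Finset.mul_sum _ _ (2 : ℝ)]
    congr 1
    simp only [Finset.mul_sum]
    rw [Finset.sum_comm]
    simp only [← mul_assoc, ← Finset.sum_mul, hu]
    simp
  rw [chr]
  simp only [e1]
  rw [Finset.sum_congr rfl fun l _ => mul_add (up h k l y) _ _, Finset.sum_add_distrib, e2]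
  ring

/-- the Ricci tensor of a second connection -/
theorem rc_sub (hg : Met g) (hC : ∀ k i j, Df (C k i j) y) (hs : ∀ k i j, C k i j y = C k j i y)
    (e : ∀ k i j, chr h k i j =ᶠ[𝓝 y] fun x => chr g k i j x + C k i j x) (i j : Fin n) :
    P366Y.C.rc h y i j = P366Y.C.rc g y i j + ∑ k, cM g C k k i j y -
      cC g (fun j x => ∑ k, C k k j x) i j y + ∑ l, (∑ k, C k k l y) * C l i j y -
      ∑ k, ∑ l, C l k i y * C k l j y := by
  have e1 : ∀ m k i j, pd m (chr h k i j) y = pd m (chr g k i j) y + pd m (C k i j) y :=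
    fun m k i j => by rw [pd_congr (e k i j), pd_add ((hg.sm_chr k i j).diff y) (hC k i j)]
  have e2 : ∀ k i j, chr h k i j y = chr g k i j y + C k i j y := fun k i j => (e k i j).eq_of_nhds
  rw [cC, pd_sum _ fun k _ => hC k k j]
  simp only [P366Y.C.rc, cM, e1, e2, mul_add, add_mul, Finset.sum_add_distrib,
    Finset.sum_sub_distrib, Finset.mul_sum, Finset.sum_mul]
  have a1 : ∑ k, ∑ l, C k k l y * chr g l i j y = ∑ l, ∑ k, chr g l i j y * C k k l y := by
    rw [Finset.sum_comm]
    exact Finset.sum_congr rfl fun _ _ => Finset.sum_congr rfl fun _ _ => by ring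
  have a2 : ∑ k, ∑ l, C l k i y * chr g k l j y = ∑ k, ∑ l, chr g l k j y * C k i l y := by
    rw [Finset.sum_comm]
    exact Finset.sum_congr rfl fun k _ => Finset.sum_congr rfl fun l _ => by rw [hs k l i]; ring
  have a3 : ∑ k, ∑ l, C k k l y * C l i j y = ∑ l, ∑ k, C k k l y * C l i j y := Finset.sum_comm
  rw [a1, a2, a3]; ring

/-- the Hessian for a second connection -/
theorem hess_sub (e : ∀ k i j, chr h k i j y = chr g k i j y + C k i j y) (i j : Fin n) :
    hess h f y i j = cC g (fun j => pd j f) i j y - ∑ k, C k i j y * pd k f y := by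
  simp only [hess, cC, e, add_mul, Finset.sum_add_distrib]
  ring

end Vale.Agent.P366RB
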