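import Vale.Agent.P366RB.Asm1
import Vale.Agent.P366RB.AsmD

/-!
P366RB: the boundary estimate from the bounds for the regularised system.
-/

open MeasureTheory Metric Filter Topology Set
open scoped ContDiff NNReal
open Vale.Agent.P366.Stmt Vale.Agent.P366K2

noncomputable section

set_option linter.unusedSectionVars false

namespace Vale.Agent.P366RB

namespace Sm

variable {n : ℕ} {ι W : Type} [Fintype ι] [MeasurableSpace W] {s : Sy n ι W} {U : Set (E n)}
  {x y : E n} {H : E n → ℝ} {c ε κ L L0 Lb r R ρ γ : ℝ} {i : Fin n} {b f : ι → E n → ℝ}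
  {β μ : Measure (E n)}

variable (ι n) in
/-- The constant of the commutator. -/
def c1 (L c : ℝ) : ℝ := Fintype.card ι * (L * (L * c * (2 * n + 1)))

theorem ok_pos (h : s.Ok U) (i : Fin n) : s.Ok (U ∩ {y | 0 < y i}) :=
  ⟨h.opn.inter (isOpen_lt continuous_const (by fun_prop)), h.sf, h.mπ, h.int, h.nn, h.dom,
    fun α a b β k => (h.sA α a b β k).mono inter_subset_left,
    fun α a b β => (h.sB α a b β).mono inter_subset_left⟩

variable (s U x i b β) in
/-- The data which do not depend on the scale. -/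
structure Su (c r L0 Lb L R : ℝ) : Prop where
  ok : s.Ok U
  wk : s.Wk (U ∩ {y | 0 < y i})
  fβ : IsFiniteMeasure β
  hβ : ∀ α a φ, Tst (U ∩ {y | 0 < y i}) φ → |s.df α i a φ| ≤ ∫ y, |φ y| ∂β
  cb : ∀ α, ContinuousOn (b α) (closedBall x r)
  bo : ∀ y ∈ U, b s.o y = 1
  nn : ∀ w, s.π w ∈ U → 0 ≤ ∑ α, b α (s.π w) * s.θ α w
  x0 : x i = 0
  sr : closedBall x r ⊆ U
  cf : s.Cf (closedBall x r) L0
  bb : ∀ α, ∀ y ∈ closedBall x r, |b α y| ≤ L
  lb : ∀ α, ∀ y ∈ closedBall x r, ∀ z ∈ closedBall x r, |b α y - b α z| ≤ Lb * ‖y - z‖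
  b0 : 0 ≤ Lb
  l0 : L0 ≤ L
  l1 : (Fintype.card ι : ℝ) * (n + 1) ≤ L
  l2 : s.ms ≤ L
  l3 : c1 n ι L0 c * volume.real (ball (0 : E n) 1) ≤ L
  l4 : s.ms * (c1 n ι L0 c * volume.real (ball (0 : E n) 1)) + β.real univ ≤ L
  l5 : Fintype.card ι * Lb * L0 ≤ L
  R0 : 0 < R
  Rr : 8 * R ≤ r
  LR : 4 * L ^ 2 * R ≤ 1

theorem Su.fn (S : Su s U x i b β c r L0 Lb L R) (g : Ml ε c H) (e : 0 < ε) (eR : ε ≤ R)
    (sp : ∀ q ∈ tsupport H, q i ∈ Icc (-(2 * ε)) (-ε)) (pm : IsProbabilityMeasure μ)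
    (sm : ∀ᵐ z ∂μ, ‖z‖ ≤ R ∧ z i ∈ Icc 0 ε) (le : μ ≤ ENNReal.ofReal (κ / ε) • volume) (κ0 : 0 ≤ κ)
    (top : ∀ y ∈ closedBall x (5 * R), 2 * R ≤ y i → s.Q H y ≤ κ) :
    Fn i s.o x R L ε κ (κ / ε * ∫ w in s.π ⁻¹' {y | y ∈ ball x r ∧ y i ∈ Icc (2 * ε) (2 * (2 * ε))},
      ∑ α, b α (s.π w) * s.θ α w ∂s.m) μ (fun α => s.u α H) (bp (closedBall x r) b)
      (mn (c1 n ι L0 c) ε (s.u s.o H))
      (fun y => mn (c1 n ι L0 c) ε (s.u s.o H) y + ml β id (fun _ => 1) H y)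
      (ml s.m s.π (θd s (closedBall x r) b) H) := by
  have h := S.ok
  have fβ := S.fβ
  have L00 := zero_le_one.trans S.cf.one
  have L1 := S.cf.one.trans S.l0
  have c0 := Sy.Ml.c_nn g e
  have C0 : 0 ≤ c1 n ι L0 c := by unfold c1; positivity
  have B := g.tst.b1
  have iH := g.sm.continuous.integrable_of_hasCompactSupport (μ := volume) g.tst.cpt
  have un : ∀ y, 0 ≤ s.u s.o H y := fun y => h.u_nn g.nn
  have eQ : ∀ y, Qf (fun α => s.u α H) y = s.Q H y := fun y => by simp only [Qf, Sy.Q, h.pd_u B]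
  have e2 : ∀ α a k, pd a (pd k (s.u α H)) = s.u α (pd a (pd k H)) := fun α a k => by
    rw [h.pd_u B, h.pd_u (g.tst.pd k).b1]
  obtain ⟨i1, i2⟩ := int_ml (h.tr s.o) g.sm.continuous iH
  have i3 : ∫ y, s.u s.o H y = s.ms := by
    rw [Sy.u, i2, g.one, one_mul, Sy.ms]
    simp only [abs_of_nonneg (h.nn _)]
  have ba := ((tr_ball ε (c1 n ι L0 c * ε⁻¹ ^ n)).ml_b1 (h.b1 B s.o)).1
  obtain ⟨i4, i5⟩ := int_ml (tr_ball ε (c1 n ι L0 c * ε⁻¹ ^ n)) (h.b1 B s.o).cd.continuous i1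
  have tβ : Tr β id fun _ => (1 : ℝ) := ⟨inferInstance, measurable_id, integrable_const 1⟩
  obtain ⟨i6, i7⟩ := int_ml tβ g.sm.continuous iH
  have a0 : ∀ y, 0 ≤ mn (c1 n ι L0 c) ε (s.u s.o H) y := fun y =>
    (mul_nonneg C0 (h.av_nn e g.nn)).trans_eq mn_eq.symm
  have j0 : ∀ y, 0 ≤ ml β id (fun _ => 1) H y := fun y =>
    integral_nonneg fun _ => mul_nonneg (g.nn _) zero_le_one
  have sb : ∀ y ∈ closedBall x (5 * R), closedBall y (2 * ε) ⊆ closedBall x r := fun y hy =>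
    closedBall_subset_closedBall' (by linarith [mem_closedBall.1 hy, S.Rr])
  have T : ∀ y ∈ closedBall x (5 * R), 0 ≤ y i → Tst (U ∩ {y | 0 < y i}) fun z => H (y - z) :=
    fun y hy y0 => g.rfl fun z k => ⟨S.sr (sb y hy (g.mem k)), by
      have := (sp _ k).2
      simp only [PiLp.sub_apply] at this
      exact (by linarith : 0 < z i)⟩
  have cm : ∀ α a k, ∀ y ∈ closedBall x (5 * R), |s.df α a k (fun z => H (y - z)) -
      s.u α (pd a (pd k H)) y| ≤ L * s.Q H y + mn (c1 n ι L0 c) ε (s.u s.o H) y :=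
    fun α a k y hy => (h.comm S.cf S.sr g e (sb y hy (mem_closedBall_self (by positivity)))
      (fun z j => sb y hy (g.mem j)) α a k).trans (add_le_add
        (mul_le_mul_of_nonneg_right S.l0 Sy.Q_nn) mn_eq.ge)
  have td := tr_d h S.cb measurableSet_closedBall S.bb L1
  have dn : ∀ w, 0 ≤ θd s (closedBall x r) b w := fun w =>
    indicator_nonneg (fun w hw => S.nn w (S.sr hw)) w
  refine ⟨S.x0, S.R0, L1, S.l1, S.LR, e, κ0, pm, sm, le, h.b1 B,
    fun α k => (h.pd_u B α k).symm ▸ h.b1 (g.tst.pd k).b1 α, un, fun α y => (h.u_dom S.cf g α).trans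
      (mul_le_mul_of_nonneg_right S.l0 (un y)), i1, i3.trans_le S.l2, ba, a0, fun y t k =>
      (wa_mn (h.b1 B s.o) μ e C0 un k).trans (mul_le_mul_of_nonneg_right S.l3 (le_trans
        (integral_nonneg fun z => by simpa using un _) (k y (mem_closedBall_self e.le)))),
    ba.cd.continuous.add (tβ.ml_b1 B).1.cd.continuous, fun y => add_nonneg (a0 y) (j0 y), i4.add i6,
    ?_, fun α k y hy y0 => ?_, fun α o k y hy y0 => ?_, fun α k y hy y0 => ?_,
    fun y hy y0 => (eQ y).trans_le (top y hy y0), bp_ms S.cb measurableSet_closedBall,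
    bp_le S.bb L1, fun y => ?_, (td.ml_b1 B).1,
    fun y => integral_nonneg fun w => mul_nonneg (g.nn _) (dn w), fun y hy y' hy' =>
      (dd_le h S.cf td g S.lb S.b0 (sb y' hy' (mem_closedBall_self (by positivity)))
        (sb y hy)).trans (mul_le_mul_of_nonneg_right (mul_le_mul_of_nonneg_right S.l5
          (by positivity)) (un y)), fun y hy y0 => tr_le td dn g μ (by positivity) le
      (measurableSet_ball.inter (measurableSet_Icc.preimage (by fun_prop)))
      (fun z k => ball_subset_closedBall k.1) (sm.mono fun z hz p k => ⟨?_, ?_⟩)⟩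
  · rw [mn, integral_add i4 i6, i5, i7, mass e, g.one, i3]
    simpa using S.l4
  · have p : 0 ≤ s.df α k k fun z => H (y - z) := by
      by_cases o : α = s.o
      · exact o ▸ S.wk.ge k _ (T y hy y0) fun _ => g.nn _
      · exact (S.wk.eq α o k _ (T y hy y0)).ge
    rw [e2, eQ]
    linarith [abs_le.1 (cm α k k y hy)]
  · rw [e2, eQ]
    linarith [abs_le.1 (cm α k k y hy), S.wk.eq α o k _ (T y hy y0)]
  · have p := S.hβ α k _ (T y hy y0)
    have q : ∫ z, |H (y - z)| ∂β = ml β id (fun _ => 1) H y := by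
      simp [ml, pr, abs_of_nonneg (g.nn _)]
    rw [e2, eQ, abs_le]
    constructor <;> linarith [abs_le.1 (cm α i k y hy), abs_le.1 p]
  · by_cases k : y ∈ closedBall x r
    · exact (bp_in k _).trans (S.bo y (S.sr k))
    · simp [bp, k]
  · have k1 := mem_closedBall_zero_iff.1 (g.sp k)
    have k2 := norm_sub_le (y - x + z) (y - p + z)
    rw [show y - x + z - (y - p + z) = p - x by abel] at k2
    rw [mem_ball_iff_norm]
    linarith [norm_add_le (y - x) z, mem_closedBall_iff_norm.1 hy, hz.1, S.Rr, S.R0]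
  · have := sp _ k
    simp only [PiLp.add_apply, PiLp.sub_apply, y0] at this
    constructor <;> linarith [this.1, this.2, hz.2.1, hz.2.2]

theorem wa_near {V : Set (E n)} (h : s.Ok V) (R : s.Rep V f) (g : Ml ε c H) (α : ι)
    [IsProbabilityMeasure μ] (sm : ∀ᵐ z ∂μ, ‖z‖ ≤ ρ)
    (k : ∀ z ∈ closedBall y (ρ + 2 * ε), z ∈ V ∧ |f α z - f α y| ≤ γ) :
    |wa μ 1 (s.u α H) y - f α y| ≤ γ := by
  obtain ⟨a, ha⟩ := (h.b1 g.tst.b1 α).bd
  have i : Integrable (fun z => s.u α H (y + z)) μ := .of_bound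
    ((h.b1 g.tst.b1 α).cd.continuous.comp (by fun_prop)).aestronglyMeasurable a
    (.of_forall fun z => (ha _).1)
  have := norm_integral_le_of_norm_le_const (μ := μ) (f := fun z => s.u α H (y + z) - f α y)
    (C := γ) (sm.mono fun z hz => by
      have sb : closedBall (y + z) (2 * ε) ⊆ closedBall y (ρ + 2 * ε) :=
        closedBall_subset_closedBall' (by simpa [add_comm ρ] using hz)
      rw [show s.u α H (y + z) = _ from rep R (tst g fun w j => (k w (sb j)).1) α]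
      exact g.avg h.opn (R.1 α) fun w j => k w (sb (g.mem j)))
  rw [integral_sub i (integrable_const _)] at this
  simpa [wa] using this

theorem ev_le (k : ℝ) {a : ℝ} (h : 0 < a) : ∀ᶠ t in 𝓝[>] (0 : ℝ), k * t ≤ a :=
  ((show ContinuousAt (fun t : ℝ => k * t) 0 by fun_prop).eventually_le_const
    (by simpa using h)).filter_mono nhdsWithin_le_nhds

end Sm

open Sm in
theorem regb_of (hA : APR) (hB : BDM) : REGB2 := by
  intro n ι W _ _ s U f i β b x h w Rp fβ hβ sb bo nn hx x0 ⟨r, r0, sr, tr⟩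
  have hp := ok_pos h i
  obtain ⟨c, -, hc⟩ := ex_ml ((3 / 2 : ℝ) • ev i) (by simp [norm_smul])
  choose! G hG hS using hc
  have kc := isCompact_closedBall x r
  obtain ⟨L0, cf⟩ := (h.ev_cf kc (convex_closedBall x r) sr).exists
  have eb := eventually_all.2 fun α => Sy.ev_bd (sb α) kc (convex_closedBall x r) sr
  obtain ⟨Lb, lb, b0⟩ := (eb.and (eventually_ge_atTop 0)).exists
  obtain ⟨L, bb, l0, l1, l2, l3, l4, l5⟩ := (eb.and <| (eventually_ge_atTop L0).and <|
    (eventually_ge_atTop ((Fintype.card ι : ℝ) * (n + 1))).and <| (eventually_ge_atTop s.ms).and <|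
    (eventually_ge_atTop (c1 n ι L0 c * volume.real (ball (0 : E n) 1))).and <| (eventually_ge_atTop
      (s.ms * (c1 n ι L0 c * volume.real (ball (0 : E n) 1)) + β.real univ)).and
        (eventually_ge_atTop (Fintype.card ι * Lb * L0))).exists
  obtain ⟨R, R0, Rr, LR⟩ := (eventually_mem_nhdsWithin.and ((ev_le 8 r0).and
    (ev_le (4 * L ^ 2) one_pos))).exists
  replace R0 : 0 < R := R0
  have S : Su s U x i b β c r L0 Lb L R := ⟨h, w, fβ, hβ, fun α => (sb α).continuousOn.mono sr, bo,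
    nn, x0, sr, cf, fun α => (bb α).1, fun α => (lb α).2, b0, l0, l1, l2, l3, l4, l5, R0, Rr, LR⟩
  obtain ⟨κ1, top⟩ := Q_cpt hp w hG ((isCompact_closedBall x (5 * R)).inter_right
    (isClosed_le (f := fun _ => 2 * R) (g := fun y : E n => y i) continuous_const (by fun_prop)))
    fun y k => ⟨sr (closedBall_subset_closedBall (by linarith) k.1),
      (mul_pos two_pos R0).trans_le k.2⟩
  obtain ⟨C, hC⟩ := hB n L R
  refine ⟨R / 2, by positivity, C.toNNReal, fun α => .of_dist_le' fun y hy y' hy' => ?_⟩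
  have mem : ∀ z ∈ ball x (R / 2) ∩ {y : E n | 0 < y i}, z ∈ U ∩ {y | 0 < y i} := fun z k =>
    ⟨sr (ball_subset_closedBall (ball_subset_ball (by linarith) k.1)), k.2⟩
  have near : ∀ γ > 0, ∀ z ∈ U ∩ {y | 0 < y i}, ∀ᶠ δ in 𝓝[>] (0 : ℝ),
      ∀ v ∈ closedBall z ((n + 2) * δ), v ∈ U ∩ {y | 0 < y i} ∧ |f α v - f α z| ≤ γ :=
    fun γ γ0 z hz => by
      obtain ⟨t, t0, t1⟩ := nhds_basis_closedBall.mem_iff.1 (inter_mem (hp.opn.mem_nhds hz)
        ((Rp.1 α).continuousAt (hp.opn.mem_nhds hz) (closedBall_mem_nhds _ γ0)))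
      exact (ev_le (n + 2) t0).mono fun δ k v hv => t1 (closedBall_subset_closedBall k hv)
  refine le_of_forall_pos_le_add fun γ γ0 => ?_
  obtain ⟨δ, d0, d1, d2, d3⟩ := (eventually_mem_nhdsWithin.and <| (ev_le n R0).and <|
    (near _ (half_pos γ0) y (mem y hy)).and (near _ (half_pos γ0) y' (mem y' hy'))).exists
  replace d0 : 0 < δ := d0
  obtain ⟨κ, k0, k1, k2⟩ := ((eventually_ge_atTop 0).and <| (eventually_ge_atTop κ1).and
    (eventually_ge_atTop (δ ^ (n - 1))⁻¹)).exists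
  obtain ⟨σ, s0, s1, s2, s3, s4⟩ := (eventually_mem_nhdsWithin.and <| (ev_le 1 R0).and <|
    (ev_le (L ^ 4 * (2 * κ * (1 + L ^ 2) + 1)) one_pos).and <| (ev_le 1 hy.2).and
      (ev_le 1 hy'.2)).exists
  replace s0 : 0 < σ := s0
  have t2 : Tendsto (fun ε : ℝ => 2 * ε) (𝓝[>] 0) (𝓝[>] 0) := tendsto_nhdsWithin_iff.2
    ⟨((continuous_const.mul continuous_id).tendsto' 0 0 (by simp)).mono_left nhdsWithin_le_nhds,
      eventually_mem_nhdsWithin.mono fun ε k => mem_Ioi.2 (mul_pos two_pos k)⟩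
  obtain ⟨ε, e0, e1, e2, e3, e4, e5, e6, e7⟩ := (eventually_mem_nhdsWithin.and <|
    (ev_le 1 d0).and <| (ev_le 1 one_pos).and <| (ev_le 1 R0).and <| (ev_le 2 s0).and <|
    (ev_le (2 * κ * (1 + L ^ 2)) one_pos).and <|
    (ev_le (4 * L * (2 * κ * (1 + L ^ 2))) (half_pos s0)).and
      (((tr.comp t2).const_mul (4 * κ)).eventually_le_const (u := σ / 2)
        (by simpa using s0))).exists
  replace e0 : 0 < ε := e0
  rw [one_mul] at e1 e2 e3 s1 s3 s4
  obtain ⟨μ, pm, sm, le⟩ := ex_box i e0 e1 k2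
  have F := S.fn (hG ε e0) e0 e3 (fun q k => supp_i (hS ε e0 k)) pm
    (sm.mono fun z k => ⟨k.1.trans d1, k.2⟩) le k0 fun z k j => (top ε ⟨e0, e2⟩ z ⟨k, j⟩).trans k1
  have := hC ι i s.o x ε κ _ μ _ _ _ _ _ σ _ F (hA n ι i s.o x R L ε κ _ μ _ _ _ _ _ F) e4 s1
    ((mul_comm _ _).trans_le e5) s2 (by
      simp only [Function.comp, mul_inv] at e7
      rw [div_eq_mul_inv]
      linarith) α y (ball_subset_closedBall hy.1) y' (ball_subset_closedBall hy'.1) s3 s4
  have sb2 : ∀ z : E n, closedBall z (n * δ + 2 * ε) ⊆ closedBall z ((n + 2) * δ) := fun z =>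
    closedBall_subset_closedBall (by linarith)
  have a1 := wa_near hp Rp (hG ε e0) α (sm.mono fun z k => k.1) fun z k => d2 z (sb2 y k)
  have a2 := wa_near hp Rp (hG ε e0) α (sm.mono fun z k => k.1) fun z k => d3 z (sb2 y' k)
  rw [Real.dist_eq, dist_eq_norm, abs_le]
  constructor <;> linarith [abs_le.1 this, abs_le.1 a1, abs_le.1 a2]

end Vale.Agent.P366RB
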