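import Vale.Agent.P366RB.Smo

/-!
P366RB: the multipliers are locally Lipschitz functions.
-/

open MeasureTheory Metric Filter Topology Set
open scoped ContDiff NNReal
open Vale.Agent.P366.Stmt Vale.Agent.P366K2

noncomputable section

set_option linter.unusedSectionVars false

namespace Vale.Agent.P366RB

namespace Sm

variable {n : ℕ} {ι W : Type} [Fintype ι] [MeasurableSpace W] {s : Sy n ι W} {U K : Set (E n)}
  {x y : E n} {H H' φ : E n → ℝ} {G : ℝ → E n → ℝ} {δ c ε r L S P : ℝ}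

theorem avg_u (h : s.Ok U) (g : B1 H) (g' : Ml δ c H') (d : 0 ≤ δ) (α : ι)
    (b : ∀ z ∈ closedBall y (2 * δ), s.Q H z ≤ S) :
    |(∫ z, s.u α H z * H' (y - z)) - s.u α H y| ≤ S * (2 * δ) :=
  have m := mem_closedBall_self (x := y) (show 0 ≤ 2 * δ by positivity)
  g'.avg isOpen_univ (h.b1 g α).cd.continuous.continuousOn fun _ k => ⟨trivial,
    (h.lip g α (convex_closedBall _ _) b m (g'.mem k)).trans (mul_le_mul_of_nonneg_left
      (mem_closedBall_iff_norm.1 (g'.mem k)) (Sy.Q_nn.trans (b y m)))⟩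

theorem sym (h : s.Ok U) (g : Ml ε c H) (g' : Ml δ c H') (α : ι) :
    ∫ z, s.u α H z * H' (y - z) = ∫ z, s.u α H' z * H (y - z) :=
  (h.tr α).ml_sym g.sm.continuous g.tst.cpt g'.sm.continuous g'.tst.cpt y

theorem crude (h : s.Ok U) (f : s.Cf K L) {b : ℝ} (e : ∀ z, |H z| ≤ b) (α : ι) :
    |s.u α H y| ≤ b * (L * s.ms) := by
  refine ((h.tr α).pr_le fun z => e _).trans (mul_le_mul_of_nonneg_left ?_
    ((abs_nonneg _).trans (e 0)))
  rw [Sy.ms, ← integral_const_mul]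
  exact integral_mono (h.int α).abs ((h.int _).abs.const_mul L) fun w =>
    (f.dom α w).trans_eq (by simp only [abs_of_nonneg (h.nn w)])

theorem o_le (h : s.Ok U) (g : Ml ε c H) (g' : Ml δ c H') (d : 0 ≤ δ)
    (b : ∀ z ∈ closedBall y (2 * δ), s.Q H z ≤ S) :
    s.u s.o H y ≤ c * δ⁻¹ ^ n * s.ms + S * (2 * δ) := by
  have a := avg_u h g.tst.b1 g' d s.o b
  have k := g.avg isOpen_univ (h.b1 g'.tst.b1 s.o).cd.continuous.continuousOn (a := 0) (x := y)
    (d := c * δ⁻¹ ^ n * s.ms) fun z _ => ⟨trivial, (congrArg abs (sub_zero _)).trans_le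
      ((h.tr s.o).pr_le fun w => (abs_of_nonneg (g'.nn _)).trans_le (g'.le _))⟩
  rw [sym h g g'] at a
  linarith [abs_le.1 a, abs_le.1 k]

theorem av_le (e : 0 < ε) (b : ∀ z ∈ closedBall y ε, |s.u s.o H z| ≤ S) :
    s.av ε H y ≤ S * volume.real (ball (0 : E n) 1) := by
  have := norm_setIntegral_le_of_norm_le_const (μ := volume) (f := s.u s.o H)
    measure_closedBall_lt_top b
  rw [Measure.addHaar_real_closedBall _ _ e.le, finrank_euclideanSpace_fin] at this
  rw [Sy.av, inv_pow, inv_mul_le_iff₀ (pow_pos e n)]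
  linarith [le_abs_self (∫ y in closedBall y ε, s.u s.o H y), Real.norm_eq_abs
    (∫ y in closedBall y ε, s.u s.o H y)]

variable (ι n) in
/-- The constant of the lower bound for the second derivatives. -/
def cc (L c : ℝ) : ℝ :=
  L + Fintype.card ι * (L * (L * c * (2 * n + 1))) * volume.real (ball (0 : E n) 1)

theorem dd_ge (h : s.Ok U) (w : s.Wk U) (f : s.Cf K L) (hK : K ⊆ U) (g : Ml ε c H) (e : 0 < ε)
    (sb : closedBall y (2 * ε) ⊆ K) (b : ∀ z ∈ closedBall y ε, s.Q H z ≤ S) (α : ι) (a : Fin n) :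
    -(cc n ι L c * S) ≤ s.u α (pd a (pd a H)) y := by
  have c0 := Sy.Ml.c_nn g e
  have L0 := zero_le_one.trans f.one
  have k := h.comm f hK g e (sb (mem_closedBall_self (by positivity))) (fun z j => sb (g.mem j)) α a a
  have T := tst g (sb.trans hK)
  have p : 0 ≤ s.df α a a fun z => H (y - z) := by
    by_cases o : α = s.o
    · exact o ▸ w.ge a _ T fun _ => g.nn _
    · exact (w.eq α o a _ T).ge
  have p1 := mul_le_mul_of_nonneg_left (av_le e fun z hz => (Sy.le_Q0 s.o).trans (b z hz))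
    (show 0 ≤ Fintype.card ι * (L * (L * c * (2 * n + 1))) by positivity)
  have p2 := mul_le_mul_of_nonneg_left (b y (mem_closedBall_self e.le)) L0
  unfold cc
  linarith [abs_le.1 k]

theorem d_le (h : s.Ok U) (g : Tst univ H) (r0 : 0 < r) (α : ι) (a : Fin n)
    (b : ∀ z ∈ closedBall x r, |s.u α H z| ≤ P ∧ -S ≤ s.u α (pd a (pd a H)) z) :
    |s.u α (pd a H) x| ≤ 2 * P / r + S * r / 2 := by
  have m : ∀ t, |t| ≤ r → x + t • ev a ∈ closedBall x r := fun t k => by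
    simpa [norm_smul] using k
  have k : ∀ t, |t| = r → t * s.u α (pd a H) x ≤ 2 * P + S * r ^ 2 / 2 := fun t k => by
    have := taylor (s := t) (K := S) (fun t => h.pd_u g.b1 α a ▸ pd_line (h.b1 g.b1 α).dif a x t)
      (fun t => h.pd_u (g.pd a).b1 α a ▸ pd_line (h.b1 (g.pd a).b1 α).dif a x t)
      fun u hu => (b _ (m u (k ▸ by simpa using abs_sub_left_of_mem_uIcc hu))).2
    simp only [zero_smul, add_zero] at this
    rw [← sq_abs, k] at this
    linarith [abs_le.1 (b _ (m t k.le)).1, abs_le.1 (b x (mem_closedBall_self r0.le)).1]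
  have k1 := k r (abs_of_pos r0)
  have k2 := k (-r) (by rw [abs_neg, abs_of_pos r0])
  rw [show 2 * P / r + S * r / 2 = (2 * P + S * r ^ 2 / 2) / r by field_simp, le_div_iff₀ r0,
    ← abs_of_pos r0, ← abs_mul, abs_of_pos r0, abs_le]
  constructor <;> linarith

theorem Q_le {a b : ℝ} (h0 : ∀ α, |s.u α H x| ≤ a) (h1 : ∀ α k, |s.u α (pd k H) x| ≤ b) :
    s.Q H x ≤ Fintype.card ι * (a + n * b) := by
  simpa [Sy.Q, mul_add] using Finset.sum_le_card_nsmul Finset.univ _ (a + n * b) fun α _ =>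
    add_le_add (h0 α) (by simpa using Finset.sum_le_card_nsmul Finset.univ _ b fun k _ => h1 α k)

/-- The uniform bound. -/
theorem Q_bd (h : s.Ok U) (w : s.Wk U) (hG : ∀ ε > 0, Ml ε c (G ε)) (hx : x ∈ U) :
    ∃ r > 0, closedBall x r ⊆ U ∧ ∃ C, ∀ ε ∈ Ioc (0 : ℝ) 1, ∀ y ∈ closedBall x r,
      s.Q (G ε) y ≤ C := by
  obtain ⟨R, R0, sb⟩ := nhds_basis_closedBall.mem_iff.1 (h.opn.mem_nhds hx)
  obtain ⟨L, f⟩ := (h.ev_cf (isCompact_closedBall x R) (convex_closedBall x R) sb).exists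
  have L0 := zero_le_one.trans f.one
  have c0 := Sy.Ml.c_nn (hG 1 one_pos) one_pos
  have m0 := s.ms_nn
  have cc0 : 0 ≤ cc n ι L c := by unfold cc; positivity
  obtain ⟨C, -, hC⟩ := absorb (n := n) (2 * n + 1)
    (Fintype.card ι * (2 * L + n * (4 * L + cc n ι L c / 2))) R (by positivity) R0
  refine ⟨R / 2, by positivity, (closedBall_subset_closedBall (by linarith)).trans sb,
    C * (Fintype.card ι * ((1 + 2 * n) * (c * L * s.ms))), fun ε e y hy => ?_⟩
  have g := hG ε e.1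
  have i1 : 1 ≤ ε⁻¹ := (one_le_inv₀ e.1).2 e.2
  refine hC (s.Q (G ε)) univ x ε (Fintype.card ι * (c * ε⁻¹ ^ (2 * n + 1) * (L * s.ms) +
    n * (c * ε⁻¹ ^ (2 * n + 1) * (L * s.ms)))) _ (by positivity) (fun _ => Sy.Q_nn)
    (fun z _ _ => Q_le (fun α => crude h f (fun z => ?_) α) fun α k => crude h f (fun z => ?_) α)
    ?_ (fun z _ r r0 er r1 sr S b => ?_) y trivial hy
  · exact (abs_of_nonneg (g.nn _)).trans_le ((g.le z).trans (by gcongr; omega))
  · exact (g.le' k z).trans (by gcongr; omega)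
  · have : ε ^ (2 * n + 1) * ε⁻¹ ^ (2 * n + 1) = 1 := by rw [← mul_pow, mul_inv_cancel₀ e.1.ne', one_pow]
    calc _ = ε ^ (2 * n + 1) * ε⁻¹ ^ (2 * n + 1) * (Fintype.card ι * ((1 + n) * (c * L * s.ms))) := by
          ring
      _ ≤ _ := by rw [this, one_mul]; gcongr; linarith [(Nat.cast_nonneg n : (0 : ℝ) ≤ n)]
  have S0 := Sy.Q_nn.trans (b z trivial (mem_closedBall_self (by positivity)))
  have sub : ∀ v ∈ closedBall z r, ∀ t ≤ 2 * r, closedBall v t ⊆ closedBall z (8 * r) :=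
    fun v hv t ht => closedBall_subset_closedBall' (by linarith [mem_closedBall.1 hv])
  have b0 : ∀ α, ∀ v ∈ closedBall z r, |s.u α (G ε) v| ≤
      L * (c * (r ^ 2)⁻¹ ^ n * s.ms + S * (2 * r ^ 2)) := fun α v hv =>
    (h.u_dom f g α).trans (mul_le_mul_of_nonneg_left (o_le h g (hG _ (by positivity)) (by positivity)
      fun u hu => b u trivial (sub v hv _ (by nlinarith) hu)) L0)
  refine (Q_le (fun α => b0 α z (mem_closedBall_self r0.le)) fun α k => d_le h g.tst r0 α k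
    fun v hv => ⟨b0 α v hv, dd_ge h w f sb g e.1 ((sub v hv _ (by linarith)).trans sr)
      (fun u hu => b u trivial (sub v hv _ (by linarith) hu)) α k⟩).trans ?_
  have e1 : (r ^ 2)⁻¹ ^ n = r * r⁻¹ ^ (2 * n + 1) := by
    rw [pow_succ r⁻¹, pow_mul, inv_pow r]
    field_simp
  have e2 : 2 * (L * (c * (r * r⁻¹ ^ (2 * n + 1)) * s.ms + S * (2 * r ^ 2))) / r =
      2 * (c * L * s.ms * r⁻¹ ^ (2 * n + 1)) + 4 * L * r * S := by field_simp; ring
  have e3 : L * (c * (r * r⁻¹ ^ (2 * n + 1)) * s.ms + S * (2 * r ^ 2)) ≤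
      c * L * s.ms * r⁻¹ ^ (2 * n + 1) + 2 * L * r * S := by
    have : 0 ≤ c * L * s.ms * r⁻¹ ^ (2 * n + 1) + 2 * L * r * S := by positivity
    nlinarith
  rw [e1, e2]
  refine (mul_le_mul_of_nonneg_left (add_le_add_left e3 _) (Nat.cast_nonneg _)).trans_eq ?_
  ring

theorem ex_lim (h : s.Ok U) (w : s.Wk U) (hG : ∀ ε > 0, Ml ε c (G ε)) (α : ι) (hx : x ∈ U) :
    ∃ a, Tendsto (fun ε => s.u α (G ε) x) (𝓝[>] 0) (𝓝 a) := by
  obtain ⟨r, r0, -, C, hC⟩ := Q_bd h w hG hx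
  have C0 := Sy.Q_nn.trans (hC 1 ⟨one_pos, le_rfl⟩ x (mem_closedBall_self r0.le))
  refine cauchy_map_iff_exists_tendsto.1 (Metric.cauchy_iff.2 ⟨inferInstance, fun η e => ?_⟩)
  have t0 : 0 < min (min 1 (r / 2)) (η / (4 * C + 1)) := by positivity
  refine ⟨_, image_mem_map (Ioo_mem_nhdsGT t0), forall_mem_image.2 fun ε k =>
    forall_mem_image.2 fun δ j => ?_⟩
  simp only [mem_Ioo, lt_min_iff, lt_div_iff₀ (show 0 < 4 * C + 1 by positivity)] at k j
  have a := avg_u h (hG ε k.1).tst.b1 (hG δ j.1) j.1.le α fun z hz => hC ε ⟨k.1, k.2.1.1.le⟩ z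
    (closedBall_subset_closedBall (by linarith [j.2.1.2]) hz)
  have b := avg_u h (hG δ j.1).tst.b1 (hG ε k.1) k.1.le α fun z hz => hC δ ⟨j.1, j.2.1.1.le⟩ z
    (closedBall_subset_closedBall (by linarith [k.2.1.2]) hz)
  rw [sym h (hG ε k.1) (hG δ j.1)] at a
  rw [Real.dist_eq, abs_lt]
  constructor <;> linarith [abs_le.1 a, abs_le.1 b, k.2.2, j.2.2, k.1, j.1]

theorem pr_lim (h : s.Ok U) (hG : ∀ ε > 0, Ml ε c (G ε)) (hφ : Continuous φ)
    (k : HasCompactSupport φ) (α : ι) :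
    Tendsto (fun ε => ∫ x, s.u α (G ε) x * φ x) (𝓝[>] 0) (𝓝 (s.pr α φ)) := by
  obtain ⟨b, hb⟩ := k.exists_bound_of_continuous hφ
  have e : ∀ ε y, ∫ x, G ε (x - y) * φ x = ∫ z, φ (y + y - z) * G ε (y - z) := fun ε y => by
    rw [← integral_sub_left_eq_self _ volume (y + y)]
    simp only [mul_comm, sub_right_comm (y + y), add_sub_cancel_right]
  have cφ : ∀ y : E n, ContinuousOn (fun z => φ (y + y - z)) univ := fun y => by fun_prop
  refine (tendsto_integral_filter_of_dominated_convergence (fun w => b * |s.θ α w|)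
    (F := fun ε w => (∫ x, G ε (x - s.π w) * φ x) * s.θ α w)
    (eventually_mem_nhdsWithin.mono fun ε j => ?_) (eventually_mem_nhdsWithin.mono fun ε j =>
      .of_forall fun w => ?_) ((h.int α).abs.const_mul b) (.of_forall fun w => .mul_const _ ?_)).congr'
    (eventually_mem_nhdsWithin.mono fun ε j => ?_)
  · have := (hG ε j).sm.continuous
    exact ((((by fun_prop : Continuous fun p : E n × E n => G ε (p.2 - p.1) * φ p.2
      ).stronglyMeasurable).integral_prod_right'.measurable.comp h.mπ).aestronglyMeasurable).mul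
        (h.int α).1
  · rw [norm_mul, e]
    exact mul_le_mul_of_nonneg_right (by
      simpa using (hG ε j).avg isOpen_univ (cφ _) (a := 0) fun z _ => ⟨trivial, by simpa using hb _⟩)
      (abs_nonneg _)
  · simpa using avg_lim isOpen_univ hG (cφ (s.π w)) trivial fun ε _ _ => e ε _
  obtain ⟨_, a⟩ := (hG ε j).tst.b1.bd
  exact ((h.tr α).fub (hG ε j).sm.continuous (fun y => (a y).1)
    (hφ.integrable_of_hasCompactSupport k)).symm

end Sm

open Sm in
theorem reg : REG := fun n ι W _ _ s U h w => by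
  obtain ⟨c, -, hc⟩ := ex_ml (0 : E n) (by simp; norm_num)
  choose! G hG _ using hc
  choose! f hf using fun α x => ex_lim (x := x) h w hG α
  have sm : ∀ᶠ ε in 𝓝[>] (0 : ℝ), ε ∈ Ioc 0 1 := Ioc_mem_nhdsGT one_pos
  have l : ∀ α, LocallyLipschitzOn U (f α) := fun α x hx => by
    obtain ⟨r, r0, sb, C, hC⟩ := Q_bd h w hG hx
    refine ⟨C.toNNReal, _, mem_nhdsWithin_of_mem_nhds (closedBall_mem_nhds x r0),
      .of_dist_le' fun z hz y hy => ?_⟩
    rw [dist_eq_norm z]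
    exact le_of_tendsto ((hf α z (sb hz)).sub (hf α y (sb hy))).abs (sm.mono fun ε k =>
      h.lip (hG ε k.1).tst.b1 α (convex_closedBall x r) (hC ε k) hy hz)
  refine ⟨f, ⟨fun α => (l α).continuousOn, fun α φ hφ k sb => ?_⟩, l⟩
  obtain ⟨C, hC⟩ : ∃ C, ∀ ε ∈ Ioc (0 : ℝ) 1, ∀ y ∈ tsupport φ, s.Q (G ε) y ≤ C :=
    k.isCompact.induction_on (p := fun S => ∃ C, ∀ ε ∈ Ioc (0 : ℝ) 1, ∀ y ∈ S, s.Q (G ε) y ≤ C)
      ⟨0, by simp⟩ (fun _ _ e ⟨C, j⟩ => ⟨C, fun ε a y b => j ε a y (e b)⟩)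
      (fun _ _ ⟨C, j⟩ ⟨C', j'⟩ => ⟨max C C', fun ε a y b => b.elim
        (fun b => le_max_of_le_left (j ε a y b)) fun b => le_max_of_le_right (j' ε a y b)⟩)
      fun x hx => let ⟨_, r0, _, j⟩ := Q_bd h w hG (sb hx)
        ⟨_, mem_nhdsWithin_of_mem_nhds (closedBall_mem_nhds x r0), j⟩
  refine tendsto_nhds_unique (pr_lim h hG hφ k α) (tendsto_integral_filter_of_dominated_convergence
    (fun x => C * |φ x|) (sm.mono fun ε j => ?_) (sm.mono fun ε j =>
      .of_forall fun x => ?_) ((hφ.integrable_of_hasCompactSupport k).abs.const_mul C)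
    (.of_forall fun x => ?_))
  · exact ((h.b1 (hG ε j.1).tst.b1 α).cd.continuous.mul hφ).aestronglyMeasurable
  all_goals by_cases hx : x ∈ tsupport φ
  · rw [norm_mul]
    exact mul_le_mul_of_nonneg_right ((Sy.le_Q0 α).trans (hC ε j x hx)) (abs_nonneg _)
  · simp [image_eq_zero_of_notMem_tsupport hx]
  · exact (hf α x (sb hx)).mul_const _
  · simp [image_eq_zero_of_notMem_tsupport hx]

theorem smo : SMO := smo_of reg

end Vale.Agent.P366RB
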