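import Vale.Agent.P366RB.WsyD
import Vale.Agent.P366K.Cv

/-!
P366RB: the system of second order for the multiplier in a chart.
-/

set_option linter.all false

open Matrix
open scoped ContDiff
open Vale.Agent.P366.Stmt Vale.Agent.P366K.C Vale.Agent.P366XR
open Vale.Agent.P366Z hiding Wt
open Vale.Agent.P366Y.C (Sy)

noncomputable section

namespace Vale.Agent.P366RB

namespace Ws

variable {n : ℕ} {g K T : Field n} {x : E n} {S : Fin n → Fin n → ℝ} {φ : E n → ℝ}

/-- The tensor with the upper components S. -/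
def lw (g : Field n) (S : Fin n → Fin n → ℝ) : Field n := fun x i j =>
  ∑ p, g x i p * ∑ q, g x j q * S p q

/-- The inverse of momT. -/
def im (g T : Field n) : Field n := fun x i j => T x i j - tr g T x / (n - 1) * g x i j

theorem sy_lw (hg : Met g) (hS : ∀ p q, S p q = S q p) : Sy (lw g S) :=
  ⟨fun i j => ContDiff.sum fun p _ => (hg.sm i p).mul (ContDiff.sum fun q _ =>
    (hg.sm j q).mul contDiff_const), fun x i j => by
    simp only [lw, Finset.mul_sum]
    rw [Finset.sum_comm]
    exact Finset.sum_congr rfl fun p _ => Finset.sum_congr rfl fun q _ => by rw [hS]; ring⟩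

theorem sy_im (hg : Met g) (hT : Sy T) : Sy (im g T) :=
  ⟨fun i j => ContDiff.sub (hT.sm i j) (((sm_tr hg hT.sm).div_const _).mul (hg.sm i j)),
    fun x i j => by simp only [im, hT.sy x i j, hg.sy x i j]⟩

theorem tr_gg (hg : Met g) : tr g g x = n := by
  rw [tr_eq hg, P366XR.inv_mul hg]
  simp

theorem tr_im (hg : Met g) (hn : 2 ≤ n) : tr g (im g T) x = -(tr g T x / (n - 1)) := by
  have : (n : ℝ) - 1 ≠ 0 := by
    have : (2 : ℝ) ≤ n := mod_cast hn
    linarith
  have e : tr g (im g T) x = tr g T x - tr g T x / (n - 1) * tr g g x := by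
    simp only [tr.eq_1 g (im g T), tr.eq_1 g g, im, mul_sub, Finset.sum_sub_distrib, Finset.mul_sum,
      mul_left_comm (tr g T x / _)]
    rfl
  rw [e, tr_gg hg]
  field_simp
  ring

theorem momT_im (hg : Met g) (hn : 2 ≤ n) : momT g (im g T) = T := by
  funext x i j
  rw [momT, tr_im hg hn, im]
  ring

theorem up_lw (hg : Met g) (a j : Fin n) :
    ∑ i, up g a i x * lw g S x i j = ∑ q, g x j q * S a q := hg.up_g_mul x a _

theorem upup (hg : Met g) (a c : Fin n) :
    ∑ i, ∑ j, up g a i x * up g c j x * lw g S x i j = S a c := by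
  rw [Finset.sum_comm, ← hg.up_g_mul x c (S a)]
  simp only [← up_lw hg, Finset.mul_sum, mul_assoc, mul_left_comm (up g c _ x)]

theorem th_sum (hg : Met g) (N : ℝ) (X v : Fin n → ℝ) :
    ∑ j, X j * ∑ q, g x j q * v q = ∑ q, th g x N X (some q) * v q := by
  simp only [th, Finset.mul_sum, Finset.sum_mul]
  rw [Finset.sum_comm]
  exact Finset.sum_congr rfl fun p _ => Finset.sum_congr rfl fun q _ => by rw [hg.sy x p]; ring

theorem th_up (hg : Met g) (N : ℝ) (X v : Fin n → ℝ) :
    ∑ j, X j * v j = ∑ c, th g x N X (some c) * ∑ j, up g c j x * v j := by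
  rw [← th_sum hg]
  simp only [hg.g_up_mul]

theorem lw_nn (hg : Met g) (ν : Fin n → ℝ) : ∑ i, ∑ j, lw g S x i j * ν i * ν j =
    ∑ p, th g x 1 ν (some p) * ∑ q, th g x 1 ν (some q) * S p q := by
  simp only [← th_sum hg, lw]
  refine Finset.sum_congr rfl fun i _ => ?_
  simp only [Finset.mul_sum, Finset.sum_mul]
  rw [Finset.sum_comm]
  exact Finset.sum_congr rfl fun _ _ => Finset.sum_congr rfl fun _ _ =>
    Finset.sum_congr rfl fun _ _ => by ring

/-- The symmetric product of two coordinate vectors. -/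
def sp (a b p q : Fin n) : ℝ :=
  (if p = a then if q = b then 1 else 0 else 0) + if p = b then if q = a then 1 else 0 else 0

theorem sp_sy (a b p q : Fin n) : sp a b p q = sp a b q p := by
  unfold sp
  split_ifs <;> simp

theorem sp_sum (a b : Fin n) (F : Fin n → Fin n → ℝ) :
    ∑ p, ∑ q, sp a b p q * F p q = F a b + F b a := by
  simp [sp, add_mul, Finset.sum_add_distrib, ite_mul]

/-- The upper components of the variations. -/
def S0 : Option (Fin n) → Fin n → Fin n → Fin n → Fin n → ℝ
  | none => sp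
  | some _ => 0

def S1 : Option (Fin n) → Fin n → Fin n → Fin n → Fin n → Fin n → ℝ
  | none => 0
  | some c => fun a b l p q => ((if l = b then sp c a p q else 0) +
      (if l = a then sp c b p q else 0) - if l = c then sp a b p q else 0) / 2

theorem S0_sy (α : Option (Fin n)) (a b p q : Fin n) : S0 α a b p q = S0 α a b q p := by
  cases α
  exacts [sp_sy _ _ _ _, rfl]

theorem S1_sy (α : Option (Fin n)) (a b l p q : Fin n) : S1 α a b l p q = S1 α a b l q p := by
  cases α
  · rfl
  simp only [S1, sp_sy _ _ p q]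

theorem top (t : Option (Fin n) → ℝ) (D : Fin n → Fin n → ℝ) (hD : ∀ i j, D i j = D j i)
    (α : Option (Fin n)) (a b : Fin n) : t none * ((∑ p, ∑ q, S0 α a b p q * D p q) / 2) +
      ∑ l, ∑ p, ∑ q, S1 α a b l p q * (t (some q) * D p l) = t α * D a b := by
  cases α with
  | none => simp [S0, S1, sp_sum, hD b a]
  | some c =>
    have e : ∀ (l u : Fin n) (v w : Fin n), ∑ p, ∑ q, (if l = u then sp v w p q else 0) *
        (t (some q) * D p l) = if l = u then t (some w) * D v l + t (some v) * D w l else 0 :=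
      fun l u v w => by split_ifs <;> simp [sp_sum]
    simp only [S0, S1, Pi.zero_apply, zero_mul, Finset.sum_const_zero, div_mul_eq_mul_div, sub_mul,
      add_mul, ← Finset.sum_div, Finset.sum_sub_distrib, Finset.sum_add_distrib, e,
      Finset.sum_ite_eq', Finset.mem_univ, if_true, hD c b, hD c a, hD b a]
    ring

/-- Combinations of tensors. -/
def cb (ψ : Fin n → E n → ℝ) (Q : Fin n → Field n) : Field n := fun x i j => ∑ l, ψ l x * Q l x i j

variable {ψ : Fin n → E n → ℝ} {Q : Fin n → Field n}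

theorem sy_cb (hψ : ∀ l, Smooth (ψ l)) (hQ : ∀ l, Sy (Q l)) : Sy (cb ψ Q) :=
  ⟨fun i j => ContDiff.sum fun l _ => (hψ l).mul ((hQ l).sm i j),
    fun x i j => by simp only [cb, fun l => (hQ l).sy x i j]⟩

theorem pr_cb : pr g T (cb ψ Q) x = ∑ l, ψ l x * pr g T (Q l) x := by
  simp only [pr, cb, Finset.mul_sum]
  symm
  iterate 4 refine Finset.sum_comm.trans (Finset.sum_congr rfl fun _ _ => ?_)
  exact Finset.sum_congr rfl fun _ _ => by ring

theorem momT_cb : momT g (cb ψ Q) = cb ψ fun l => momT g (Q l) := by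
  funext x i j
  simp only [momT, cb, tr, Finset.mul_sum, mul_sub, Finset.sum_sub_distrib, Finset.sum_mul,
    mul_left_comm (ψ _ x), mul_assoc]
  rw [P366P.rot3, P366P.rot3]

theorem dvT_cb (hψ : ∀ l, Smooth (ψ l)) (hQ : ∀ l, Sm (Q l)) (j : Fin n) :
    dvT g (cb ψ Q) j x = ∑ l, (∑ i, ∑ k, up g i k x * (pd k (ψ l) x * Q l x i j) +
      ψ l x * dvT g (Q l) j x) := by
  have (s : Finset (Fin n)) : dvT g (fun x i j => ∑ l ∈ s, ψ l x * Q l x i j) j x = ∑ l ∈ s,
      (∑ i, ∑ k, up g i k x * (pd k (ψ l) x * Q l x i j) + ψ l x * dvT g (Q l) j x) := by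
    induction s using Finset.induction_on with
    | empty => simp [dvT, pd_const]
    | insert l s hl ih =>
      simp only [Finset.sum_insert hl]
      rw [dvT_add g (A := fun y i j => ψ l y * Q l y i j) (fun i j => (hψ l).mul (hQ l i j))
        fun i j => ContDiff.sum fun l _ => (hψ l).mul (hQ l i j), ih,
        dvT_smul g ((hψ l).diff x) (hQ l)]
  exact this _

theorem U_sum (hg : Met g) (N : ℝ) (X v : Fin n → ℝ) :
    ∑ j, X j * ∑ i, ∑ k, up g i k x * (v k * lw g S x i j) =
      ∑ p, ∑ q, S p q * (th g x N X (some q) * v p) := by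
  have e : ∀ j, ∑ i, ∑ k, up g i k x * (v k * lw g S x i j) =
      ∑ q, g x j q * ∑ p, S p q * v p := fun j => by
    rw [Finset.sum_comm]
    simp only [mul_left_comm _ (v _), ← Finset.mul_sum]
    simp only [fun k => show ∑ i, up g i k x * lw g S x i j = _ from
      (Finset.sum_congr rfl fun i _ => by rw [hg.up_sy]).trans (up_lw hg k j), Finset.mul_sum]
    rw [Finset.sum_comm]
    exact Finset.sum_congr rfl fun _ _ => Finset.sum_congr rfl fun _ _ => by ring
  simp only [e, th_sum hg N]
  simp only [Finset.mul_sum]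
  rw [Finset.sum_comm]
  exact Finset.sum_congr rfl fun _ _ => Finset.sum_congr rfl fun _ _ => by ring

theorem sm_Wt (hg : Met g) {h k : Field n} (hK : Sm K) (hh : Sm h) (hk : Sm k) :
    Sm (Wt g K h k) := fun i j =>
  have m := sm_momT hg hK
  ContDiff.add (ContDiff.sub (ContDiff.sub (ContDiff.add (sm_momT hg hk i j) ((ContDiff.sub
    (sm_pr hg hK hh) ((sm_pr hg m hh).div_const 2)).mul (hg.sm i j))) ((sm_tr hg hK).mul (hh i j)))
    (sm_ml hg hh m i j)) (((sm_tr hg hh).div_const 2).mul (m i j))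

theorem split (hg : Met g) {h k : Field n} (hK : Sm K) (hh : Sm h) (hk : Sm k) :
    Lmu g K h k x = Lmu g K h (fun _ _ _ => 0 * 0) x - pr g (momT g K) k x ∧
      ∀ j, Lmo g K h k j x = Lmo g K h (fun _ _ _ => 0 * 0) j x + dvT g (momT g k) j x := by
  refine ⟨by simp [Lmu, pr], fun j => ?_⟩
  have e : Wt g K h k = fun x i j => Wt g K h (fun _ _ _ => 0 * 0) x i j + momT g k x i j := by
    funext x i j
    simp only [Wt, momT, tr, mul_zero, Finset.sum_const_zero, zero_mul]
    ring
  simp only [Lmo, Lmom]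
  rw [e, dvT_add g (sm_Wt hg hK hh fun _ _ => contDiff_const) (sm_momT hg hk)]
  ring

theorem fin {N P b f : ℝ} {X A p d B t : Fin n → ℝ} {W v U u : Fin n → Fin n → ℝ}
    (e : ∑ j, X j * (∑ l, (W l j + v l j) * d l + B j * f) =
      ∑ c, t c * ∑ j, u c j * (∑ l, (W l j + v l j) * d l + B j * f)) :
    N * (P + ∑ l, A l * d l + b * f - ∑ l, d l * p l) +
      ∑ j, X j * (∑ l, W l j * d l + B j * f + ∑ l, (U l j + d l * v l j)) =
    N * P + ∑ j, ∑ l, X j * U l j - (N * (∑ l, (p l - A l) * d l + -b * f) +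
      ∑ c, t c * (∑ l, (-∑ j, u c j * (W l j + v l j)) * d l + (-∑ j, u c j * B j) * f)) := by
  have e1 : ∀ c, ∑ l, (-∑ j, u c j * (W l j + v l j)) * d l + (-∑ j, u c j * B j) * f =
      -∑ j, u c j * (∑ l, (W l j + v l j) * d l + B j * f) := fun c => by
    simp only [neg_mul, Finset.sum_neg_distrib, Finset.sum_mul, mul_add (u c _) (∑ _, _),
      Finset.sum_add_distrib, Finset.mul_sum, mul_assoc]
    rw [Finset.sum_comm]
    ring
  simp only [e1, mul_neg, Finset.sum_neg_distrib, ← e]
  simp only [mul_add, add_mul, sub_mul, Finset.sum_add_distrib, Finset.sum_sub_distrib,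
    ← Finset.mul_sum, mul_comm (d _)]
  ring

end Ws

open Ws in
theorem wsy (hc : COEF) : WSY := fun n g K hn hg hK => by
  have s0 := fun α a b => sy_im hg (sy_lw hg (S0_sy α a b))
  have s1 := fun α a b l => sy_lw hg (S1_sy α a b l)
  choose A B b hA hB hb H using fun α a b => hc n g K _ (fun _ _ _ => 0) hg hK (s0 α a b)
    ⟨fun _ _ => contDiff_const, fun _ _ _ => rfl⟩
  have sW := fun α a b => sm_Wt hg hK.sm (s0 α a b).sm (k := fun _ _ _ => 0)
    fun _ _ => contDiff_const
  refine ⟨fun α a c β l x => β.elim (pr g (momT g K) (im g (lw g (S1 α a c l))) x - A α a c l x)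
      fun d => -∑ j, up g d j x * (∑ i, up g i l x * Wt g K (im g (lw g (S0 α a c)))
        (fun _ _ _ => 0) x i j + dvT g (lw g (S1 α a c l)) j x),
    fun α a c β x => β.elim (-b α a c x) fun d => -∑ j, up g d j x * B α a c j x,
    fun α a c β l => ?_, fun α a c β => ?_, fun α a c φ hφ => ⟨fun y i j => φ y *
      im g (lw g (S0 α a c)) y i j, cb (fun l => pd l φ) fun l => im g (lw g (S1 α a c l)),
      ⟨fun i j => hφ.mul ((s0 α a c).sm i j), fun x i j => by rw [(s0 α a c).sy]⟩,
      sy_cb hφ.pd fun l => sy_im hg (s1 α a c l), fun x hx => ?_, fun x N X => ?_,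
      fun x ν hν => ?_⟩⟩
  · cases β
    · exact ContDiff.sub (sm_pr hg (sm_momT hg hK.sm) (sy_im hg (s1 α a c l)).sm) (hA α a c l)
    exact (ContDiff.sum fun j _ => (hg.sm_up _ j).mul (ContDiff.add (ContDiff.sum fun i _ =>
      (hg.sm_up i l).mul (sW α a c i j)) (sm_dvT hg (s1 α a c l).sm j))).neg
  · cases β
    · exact (hb α a c).neg
    exact (ContDiff.sum fun j _ => (hg.sm_up _ j).mul (hB α a c j)).neg
  · have e : ∀ l, pd l φ x = 0 := fun l =>
      (pd_congr (notMem_tsupport_iff_eventuallyEq.1 hx) l).trans (pd_const 0 l x)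
    constructor <;> funext i j <;> simp [cb, e, image_eq_zero_of_notMem_tsupport hx]
  · obtain ⟨h1, h2⟩ := H α a c φ (fun _ => 0) x hφ contDiff_const
    obtain ⟨k1, k2⟩ := split (x := x) hg hK.sm (h := fun y i j => φ y * im g (lw g (S0 α a c)) y i j)
      (fun i j => hφ.mul ((s0 α a c).sm i j)) (sy_cb hφ.pd fun l => sy_im hg (s1 α a c l)).sm
    have t := top (th g x N X) (fun i j => pd i (pd j φ) x)
      (fun i j => pd_comm (hφ.c2 x) i j) α a c
    have e := th_up (x := x) hg N X fun j => ∑ l, (∑ i, up g i l x * Wt g K (im g (lw g (S0 α a c)))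
      (fun _ _ _ => 0) x i j + dvT g (lw g (S1 α a c l)) j x) * pd l φ x + B α a c j x * φ x
    have u := Finset.sum_comm.trans (Finset.sum_congr (s₁ := Finset.univ) rfl fun l _ =>
      U_sum (x := x) (S := S1 α a c l) hg N X fun k => pd k (pd l φ) x)
    rw [k1, h1, ← t, ← u]
    simp only [k2, h2]
    simp only [momT_cb, momT_im hg hn, upup hg, pr_cb, pd_const,
      dvT_cb hφ.pd fun l => (s1 α a c l).sm, Fintype.sum_option, Option.elim, mul_zero, zero_mul,
      Finset.sum_const_zero, add_zero, sub_zero]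
    exact fin e
  · have e : ∀ i j, φ x * im g (lw g (S0 α a c)) x i j * ν i * ν j = φ x * (lw g (S0 α a c) x i j *
      ν i * ν j) - φ x * (tr g (lw g (S0 α a c)) x / (n - 1)) * (g x i j * ν i * ν j) :=
      fun i j => by rw [im]; ring
    have e2 : tr g (fun y i j => φ y * im g (lw g (S0 α a c)) y i j) x =
        φ x * tr g (im g (lw g (S0 α a c))) x := by
      simp only [tr, Finset.mul_sum, mul_left_comm (φ x)]
    simp only [e, e2, tr_im hg hn, Finset.sum_sub_distrib, ← Finset.mul_sum, hν, lw_nn hg]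
    cases α with
    | none =>
      have := sp_sum a c fun p q => th g x 1 ν (some p) * th g x 1 ν (some q)
      simp only [S0, Finset.mul_sum, if_true, fun p q => show th g x 1 ν (some p) *
        (th g x 1 ν (some q) * sp a c p q) = sp a c p q * (th g x 1 ν (some p) *
          th g x 1 ν (some q)) by ring, this]
      ring
    | some d => simp [S0]

end Vale.Agent.P366RB
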