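import Vale.Agent.P366RB.Reg
import Vale.Agent.P366K2.Bd

/-!
P366RB: tools for the boundary estimate.
-/

open MeasureTheory Metric Filter Topology Set
open scoped ContDiff NNReal
open Vale.Agent.P366.Stmt Vale.Agent.P366K2

noncomputable section

set_option linter.unusedSectionVars false

namespace Vale.Agent.P366RB

namespace Sm

variable {n : ℕ} {ι W : Type} [Fintype ι] [MeasurableSpace W] {s : Sy n ι W} {U K : Set (E n)}
  {x y : E n} {H : E n → ℝ} {G : ℝ → E n → ℝ} {δ c ε κ L C : ℝ} {i : Fin n}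
  {b : ι → E n → ℝ}

theorem int_ml {m : Measure W} {π : W → E n} {θ : W → ℝ} (t : Tr m π θ) (h : Continuous H)
    (k : Integrable H) : Integrable (ml m π θ H) ∧ ∫ y, ml m π θ H y = (∫ y, H y) * ∫ w, θ w ∂m := by
  have := t.sf
  have := t.mπ
  have j : Integrable (fun p : E n × W => H (p.1 - π p.2) * θ p.2) (volume.prod m) := by
    refine (integrable_prod_iff' (f := fun p : E n × W => H (p.1 - π p.2) * θ p.2)
      ((by fun_prop : Measurable fun p : E n × W => H (p.1 - π p.2)).aestronglyMeasurable.mul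
        t.int.1.comp_snd)).2 ⟨.of_forall fun w => (k.comp_sub_right (π w)).mul_const (θ w), ?_⟩
    simp only [norm_mul, integral_mul_const, integral_sub_right_eq_self fun y => ‖H y‖]
    exact t.int.norm.const_mul _
  refine ⟨j.integral_prod_left, ?_⟩
  simp only [ml, pr]
  rw [integral_integral_swap j]
  simp only [integral_mul_const, integral_sub_right_eq_self H, integral_const_mul]

theorem ex_box (i : Fin n) (e : 0 < ε) (d : ε ≤ δ) (k : (δ ^ (n - 1))⁻¹ ≤ κ) :
    ∃ μ : Measure (E n), IsProbabilityMeasure μ ∧ (∀ᵐ z ∂μ, ‖z‖ ≤ n * δ ∧ z i ∈ Icc 0 ε) ∧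
      μ ≤ ENNReal.ofReal (κ / ε) • volume := by
  let B : Set (E n) := WithLp.ofLp ⁻¹' Icc 0 fun j => if j = i then ε else δ
  have d0 := e.trans_le d
  have mB : MeasurableSet B := measurableSet_Icc.preimage (by fun_prop)
  have p : 0 < ε * δ ^ (n - 1) := by positivity
  have v : volume B = ENNReal.ofReal (ε * δ ^ (n - 1)) := by
    rw [(PiLp.volume_preserving_ofLp (Fin n)).measure_preimage measurableSet_Icc.nullMeasurableSet,
      Real.volume_Icc_pi, ← ENNReal.ofReal_prod_of_nonneg fun j _ => by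
        split_ifs <;> simp [e.le, d0.le], ← Finset.mul_prod_erase _ _ (Finset.mem_univ i),
      Finset.prod_congr rfl (g := fun _ => δ) fun j hj => by simp [Finset.ne_of_mem_erase hj]]
    simp
  have nm : ∀ z ∈ B, ‖z‖ ≤ n * δ := fun z hz => by
    rw [← sum_ev z]
    refine (norm_sum_le _ _).trans ((Finset.sum_le_card_nsmul _ _ δ fun j _ => ?_).trans_eq
      (by simp))
    rw [norm_smul, norm_ev, mul_one, Real.norm_of_nonneg (hz.1 j)]
    exact (hz.2 j).trans (by dsimp only; split_ifs; exacts [d, le_rfl])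
  refine ⟨(volume B)⁻¹ • volume.restrict B, ⟨?_⟩, Measure.ae_smul_measure
    ((ae_restrict_mem mB).mono fun z hz => ⟨nm z hz, hz.1 i, by simpa using hz.2 i⟩) _, ?_⟩
  · simp only [Measure.smul_apply, Measure.restrict_apply_univ, smul_eq_mul, v]
    exact ENNReal.inv_mul_cancel (by simpa using p) ENNReal.ofReal_ne_top
  refine Measure.le_iff.2 fun A hA => ?_
  simp only [Measure.smul_apply, smul_eq_mul]
  refine mul_le_mul' ?_ (Measure.restrict_le_self A)
  rw [v, ← ENNReal.ofReal_inv_of_pos p, mul_inv, mul_comm, div_eq_mul_inv]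
  exact ENNReal.ofReal_le_ofReal (mul_le_mul_of_nonneg_right k (inv_pos.2 e).le)

theorem Q_cpt (h : s.Ok U) (w : s.Wk U) (hG : ∀ ε > 0, Ml ε c (G ε)) (k : IsCompact K)
    (sb : K ⊆ U) : ∃ C, ∀ ε ∈ Ioc (0 : ℝ) 1, ∀ y ∈ K, s.Q (G ε) y ≤ C :=
  k.induction_on (p := fun S => ∃ C, ∀ ε ∈ Ioc (0 : ℝ) 1, ∀ y ∈ S, s.Q (G ε) y ≤ C)
    ⟨0, by simp⟩ (fun _ _ e ⟨C, j⟩ => ⟨C, fun ε a y b => j ε a y (e b)⟩)
    (fun _ _ ⟨C, j⟩ ⟨C', j'⟩ => ⟨max C C', fun ε a y b => b.elim
      (fun b => le_max_of_le_left (j ε a y b)) fun b => le_max_of_le_right (j' ε a y b)⟩)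
    fun x hx => let ⟨_, r0, _, j⟩ := Q_bd h w hG (sb hx)
      ⟨_, mem_nhdsWithin_of_mem_nhds (closedBall_mem_nhds x r0), j⟩

theorem tr_ball (ε a : ℝ) : Tr (volume.restrict (closedBall (0 : E n) ε)) id fun _ => a :=
  ⟨inferInstance, measurable_id, integrableOn_const measure_closedBall_lt_top.ne⟩

/-- The local mean. -/
def mn (C ε : ℝ) (u : E n → ℝ) : E n → ℝ :=
  ml (volume.restrict (closedBall 0 ε)) id (fun _ => C * ε⁻¹ ^ n) u

theorem mn_eq : mn C ε (s.u s.o H) y = C * s.av ε H y := by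
  rw [Sy.av, ← (Measure.measurePreserving_sub_left volume y).setIntegral_preimage_emb
    (MeasurableEquiv.subLeft y).measurableEmbedding, show (fun t => y - t) ⁻¹' closedBall y ε =
      closedBall 0 ε by ext; simp [dist_eq_norm], ← mul_assoc, mul_comm, ← integral_mul_const]
  rfl

theorem mass (e : 0 < ε) : ∫ _ in closedBall (0 : E n) ε, C * ε⁻¹ ^ n =
    C * volume.real (ball (0 : E n) 1) := by
  rw [setIntegral_const, Measure.addHaar_real_closedBall _ _ e.le, finrank_euclideanSpace_fin,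
    smul_eq_mul, inv_pow]
  field_simp

theorem wa_ml {m : Measure W} {π : W → E n} {θ : W → ℝ} (t : Tr m π θ) (h : B1 H)
    (μ : Measure (E n)) [IsProbabilityMeasure μ] :
    wa μ 1 (ml m π θ H) y = pr m π θ fun p => wa μ 1 H (y - p) := by
  obtain ⟨a, ha⟩ := h.bd
  have := t.fub (G := fun z => H (y + z)) (φ := 1) (μ := μ) (h.cd.continuous.comp (by fun_prop))
    (fun z => (ha _).1) (integrable_const 1)
  simp only [wa, ml, ← add_sub_assoc, add_sub_right_comm y] at this ⊢
  exact this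

theorem wa_mn {u : E n → ℝ} (h : B1 u) (μ : Measure (E n)) [IsProbabilityMeasure μ] (e : 0 < ε)
    (C0 : 0 ≤ C) (nn : ∀ z, 0 ≤ u z) {S : ℝ} (k : ∀ w ∈ closedBall y ε, wa μ 1 u w ≤ S) :
    wa μ 1 (mn C ε u) y ≤ C * volume.real (ball (0 : E n) 1) * S := by
  rw [mn, wa_ml (tr_ball _ _) h, ← mass e, ← integral_mul_const, pr]
  refine integral_mono_of_nonneg (.of_forall fun p => mul_nonneg (integral_nonneg fun z => by
    simpa using nn _) (by positivity)) (integrableOn_const measure_closedBall_lt_top.ne)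
    ((ae_restrict_mem measurableSet_closedBall).mono fun p hp => ?_)
  have j : y - p ∈ closedBall y ε := by simpa [dist_eq_norm] using hp
  exact (mul_le_mul_of_nonneg_right (k _ j) (by positivity)).trans_eq (mul_comm _ _)

open Classical in
/-- The coefficients cut to K. -/
def bp (K : Set (E n)) (b : ι → E n → ℝ) (α : ι) : E n → ℝ := K.piecewise (b α) 1

variable (s) in
/-- The combination cut to K. -/
def θd (K : Set (E n)) (b : ι → E n → ℝ) : W → ℝ :=
  indicator (s.π ⁻¹' K) fun w => ∑ α, b α (s.π w) * s.θ α w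

theorem bp_in (h : y ∈ K) (α : ι) : bp K b α y = b α y := by simp [bp, h]

theorem bp_le (h : ∀ α, ∀ y ∈ K, |b α y| ≤ L) (L1 : 1 ≤ L) (α : ι) (y : E n) : |bp K b α y| ≤ L := by
  by_cases k : y ∈ K
  · exact bp_in (b := b) k α ▸ h α y k
  · simpa [bp, k] using L1

theorem bp_ms (h : ∀ α, ContinuousOn (b α) K) (k : MeasurableSet K) (α : ι) :
    Measurable (bp K b α) := by
  classical exact (h α).measurable_piecewise continuousOn_const k

theorem tr_d (h : s.Ok U) (c : ∀ α, ContinuousOn (b α) K) (k : MeasurableSet K)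
    (l : ∀ α, ∀ y ∈ K, |b α y| ≤ L) (L1 : 1 ≤ L) : Tr s.m s.π (θd s K b) :=
  ⟨h.sf, h.mπ, ((integrable_finsetSum Finset.univ fun α _ => (h.tr α).ig (bp_ms c k α)
    (bp_le l L1 α)).indicator (h.mπ k)).congr (.of_forall fun w => by
      by_cases j : s.π w ∈ K <;> simp [θd, j, bp_in])⟩

theorem dd_le (h : s.Ok U) (f : s.Cf K L) (t : Tr s.m s.π (θd s K b)) (g : Ml ε c H) {y' : E n}
    (l : ∀ α, ∀ y ∈ K, ∀ z ∈ K, |b α y - b α z| ≤ C * ‖y - z‖) (C0 : 0 ≤ C) (hy : y' ∈ K)
    (sb : closedBall y (2 * ε) ⊆ K) : |∑ α, bp K b α y' * s.u α H y - ml s.m s.π (θd s K b) H y| ≤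
      Fintype.card ι * C * L * (‖y - y'‖ + 2 * ε) * s.u s.o H y := by
  have T := tst g sb
  have i := fun α => ((h.tr α).igc T.sm.continuous T.cpt).const_mul (bp K b α y')
  simp only [Sy.u, ml, pr, ← integral_const_mul]
  rw [← integral_finsetSum _ fun α _ => i α, ← integral_sub (integrable_finsetSum _ fun α _ => i α)
    (t.igc T.sm.continuous T.cpt), ← Real.norm_eq_abs]
  refine norm_integral_le_of_norm_le (((h.tr _).igc T.sm.continuous T.cpt).const_mul _)
    (.of_forall fun w => ?_)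
  by_cases k : y - s.π w ∈ tsupport H
  swap
  · simp [image_eq_zero_of_notMem_tsupport k]
  have m := g.mem k
  rw [θd, indicator_of_mem (by exact sb m), Finset.mul_sum, ← Finset.sum_sub_distrib]
  refine (norm_sum_le _ _).trans ((Finset.sum_le_card_nsmul _ _ (H (y - s.π w) *
    (C * (‖y - y'‖ + 2 * ε) * (L * s.θ s.o w))) fun α _ => ?_).trans_eq (by simp; ring))
  rw [bp_in hy, mul_left_comm, ← mul_sub, ← sub_mul, norm_mul, norm_mul, Real.norm_of_nonneg (g.nn _)]
  have a : ‖y' - s.π w‖ ≤ ‖y - y'‖ + 2 * ε := by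
    linarith [norm_sub_le_norm_sub_add_norm_sub y' y (s.π w), mem_closedBall_iff_norm'.1 m,
      norm_sub_rev y y']
  exact mul_le_mul_of_nonneg_left (mul_le_mul ((l α y' hy _ (sb m)).trans
    (mul_le_mul_of_nonneg_left a C0)) (f.dom α w) (norm_nonneg _)
    (mul_nonneg C0 ((norm_nonneg _).trans a))) (g.nn _)

theorem tr_le (t : Tr s.m s.π (θd s K b)) (nn : ∀ w, 0 ≤ θd s K b w) (g : Ml ε c H)
    (μ : Measure (E n)) [IsProbabilityMeasure μ] {a : ℝ} (a0 : 0 ≤ a)
    (le : μ ≤ ENNReal.ofReal a • volume) {A : Set (E n)} (hA : MeasurableSet A) (sb : A ⊆ K)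
    (e : ∀ᵐ z ∂μ, ∀ p, y - p + z ∈ tsupport H → p ∈ A) : wa μ 1 (ml s.m s.π (θd s K b) H) y ≤
      a * ∫ w in s.π ⁻¹' A, ∑ α, b α (s.π w) * s.θ α w ∂s.m := by
  rw [wa_ml t g.tst.b1]
  refine (le_abs_self _).trans ((t.pr_dom (K := 1) (c := a) (ψ := indicator A fun _ => a)
    (fun w => by rw [one_mul, abs_of_nonneg (nn w)]) (measurable_const.indicator hA)
    (fun p => by by_cases j : p ∈ A <;> simp [j, a0, abs_of_nonneg]) fun p => ?_).trans_eq ?_)
  · by_cases j : p ∈ A
    · have i := (g.sm.continuous.integrable_of_hasCompactSupport (μ := volume) g.tst.cpt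
        ).comp_add_left (y - p)
      simp only [wa, Pi.one_apply, mul_one, indicator_of_mem j]
      rw [abs_of_nonneg (integral_nonneg fun _ => g.nn _)]
      refine (integral_mono_measure le (.of_forall fun _ => g.nn _)
        (i.smul_measure ENNReal.ofReal_ne_top)).trans_eq ?_
      rw [integral_smul_measure, integral_add_left_eq_self, g.one]
      simp [a0]
    · rw [wa, integral_eq_zero_of_ae (e.mono fun z hz => by
        simp [image_eq_zero_of_notMem_tsupport fun k => j (hz p k)])]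
      simp [j]
  rw [one_mul, pr, ← integral_const_mul, ← integral_indicator (t.mπ hA)]
  refine integral_congr_ae (.of_forall fun w => ?_)
  by_cases j : s.π w ∈ A
  · simp [θd, j, sb j]
  · simp [j]

theorem supp_i {q : E n} (e : q ∈ closedBall (-(ε • (3 / 2 : ℝ) • ev i)) (ε / 2)) :
    q i ∈ Icc (-(2 * ε)) (-ε) := by
  have := abs_le.1 ((PiLp.norm_apply_le _ i).trans (mem_closedBall_iff_norm.1 e))
  simp at this
  constructor <;> linarith [this.1, this.2]

end Sm

end Vale.Agent.P366RB
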