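import Vale.Agent.P366K2.Est
import Mathlib.Analysis.Calculus.LineDeriv.IntegrationByParts

/-!
P366RB: the multipliers are smooth where there is no source.
-/

open MeasureTheory Metric Filter Topology Set
open scoped ContDiff NNReal
open Vale.Agent.P366.Stmt Vale.Agent.P366K2

noncomputable section

set_option linter.unusedSectionVars false

namespace Vale.Agent.P366RB

namespace Sm

variable {n : ℕ} {U : Set (E n)} {x y : E n} {g g' : Fin n → ℝ} {v w φ H : E n → ℝ} {δ c ε : ℝ}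
  {G : ℝ → E n → ℝ} {m : ℕ}

/-- The covector with the components g. -/
def cv (g : Fin n → ℝ) : E n →L[ℝ] ℝ := ∑ k, g k • EuclideanSpace.proj k

theorem cv_ap (z : E n) : cv g z = ∑ k, z k * g k := by simp [cv, mul_comm]

theorem fd_cv (h : DifferentiableAt ℝ v x) : fderiv ℝ v x = cv fun k => pd k v x :=
  ContinuousLinearMap.ext fun z => by rw [fd_sum h, cv_ap]

theorem nm_cv (b : ∀ k, |g k - g' k| ≤ δ) (h : 0 ≤ δ) : ‖cv g - cv g'‖ ≤ n * δ :=
  ContinuousLinearMap.opNorm_le_bound _ (by positivity) fun z => by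
    rw [sub_apply, cv_ap, cv_ap, ← Finset.sum_sub_distrib]
    refine (norm_sum_le _ _).trans ((Finset.sum_le_card_nsmul _ _ (δ * ‖z‖) fun k _ => ?_).trans_eq
      (by simp [mul_assoc]))
    rw [← mul_sub, norm_mul, mul_comm]
    exact mul_le_mul (b k) (PiLp.norm_apply_le z k) (norm_nonneg _) h

/-- The derivative of a limit. -/
theorem der_lim {ι : Type} {l : Filter ι} [l.NeBot] {u : ι → E n → ℝ}
    (hd : ∀ᶠ e in l, Differentiable ℝ (u e))
    (ht : ∀ᶠ y in 𝓝 x, Tendsto (fun e => u e y) l (𝓝 (v y)))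
    (hg : ∀ δ > 0, ∃ ρ > 0, ∀ᶠ e in l, ∀ y ∈ ball x ρ, ∀ k, |pd k (u e) y - g k| ≤ δ) :
    HasFDerivAt v (cv g) x := by
  refine .of_isLittleO (Asymptotics.isLittleO_iff.2 fun c hc => ?_)
  obtain ⟨ρ, h0, h1⟩ := hg (c / (n + 1)) (by positivity)
  filter_upwards [ht, ball_mem_nhds x h0] with y hy hy'
  refine le_of_tendsto ((hy.sub ht.self_of_nhds).sub_const (cv g (y - x))).norm ?_
  filter_upwards [hd, h1] with e d b
  refine (convex_ball x ρ).norm_image_sub_le_of_norm_fderiv_le' (fun z _ => d z) (fun z hz => ?_)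
    (mem_ball_self h0) hy'
  rw [fd_cv (d z)]
  refine (nm_cv (b z hz) (by positivity)).trans ?_
  rw [← mul_div_assoc, div_le_iff₀ (by positivity)]
  nlinarith

theorem cd_cv (hU : IsOpen U) {g : Fin n → E n → ℝ}
    (h : ∀ x ∈ U, HasFDerivAt v (cv fun k => g k x) x) (hg : ∀ k, ContDiffOn ℝ m (g k) U) :
    ContDiffOn ℝ (m + 1 : ℕ) v U := by
  rw [Nat.cast_succ, contDiffOn_succ_iff_fderiv_of_isOpen hU]
  refine ⟨fun x hx => (h x hx).differentiableAt.differentiableWithinAt, by simp,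
    ContDiffOn.congr ?_ fun x hx => (h x hx).fderiv⟩
  exact ContDiffOn.sum fun k _ => (hg k).smul contDiffOn_const

theorem le_inf (k : ℕ) : (k : WithTop ℕ∞) ≤ ∞ := mod_cast le_top

theorem dif (hU : IsOpen U) (h : ContDiffOn ℝ (m + 1 : ℕ) v U) (hx : x ∈ U) :
    DifferentiableAt ℝ v x := (h.contDiffAt (hU.mem_nhds hx)).differentiableAt (by simp)

theorem cd_pd (hU : IsOpen U) (h : ContDiffOn ℝ (m + 1 : ℕ) v U) (k : Fin n) :
    ContDiffOn ℝ m (pd k v) U :=
  ((h.fderiv_of_isOpen hU (by simp)).clm_apply contDiffOn_const).congr fun _ hx =>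
    pd_eq (dif hU h hx) k

theorem ig (hU : IsOpen U) (hv : ContinuousOn v U) (T : Tst U φ) : Integrable fun y => v y * φ y :=
  (cont_mul hU hv T.sm.continuous T.sub).integrable_of_hasCompactSupport T.cpt.mul_left

theorem ibp (hU : IsOpen U) (h : ContDiffOn ℝ (m + 1 : ℕ) v U) (T : Tst U φ) (k : Fin n) :
    ∫ y, v y * pd k φ y = -∫ y, pd k v y * φ y :=
  integral_bilinear_hasLineDerivAt_right_eq_neg_left_of_integrable (B := .mul ℝ ℝ) (v := ev k)
    (ig hU (cd_pd hU h k).continuousOn T) (ig hU h.continuousOn (T.pd k)) (ig hU h.continuousOn T)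
    (fun _ hx => (dif hU h (T.sub hx)).lineDifferentiableAt.hasLineDerivAt)
    fun x _ => (T.b1.dif x).lineDifferentiableAt.hasLineDerivAt

theorem ev_sub {S : Set (E n)} (h : S ∈ 𝓝 x) : ∃ ρ > 0, ∀ᶠ ε in 𝓝[>] (0 : ℝ), 0 < ε ∧
    ∀ y ∈ ball x ρ, closedBall y (2 * ε) ⊆ S := by
  obtain ⟨r, h0, h1⟩ := Metric.mem_nhds_iff.1 h
  refine ⟨r / 2, by positivity, ?_⟩
  filter_upwards [Ioo_mem_nhdsGT (show 0 < r / 4 by positivity)] with ε e
  exact ⟨e.1, fun y hy => (closedBall_subset_ball' (by linarith [mem_ball.1 hy, e.2])).trans h1⟩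

theorem avg_loc (hU : IsOpen U) (hG : ∀ ε > 0, Ml ε c (G ε)) (hv : ContinuousOn v U) (hx : x ∈ U)
    (h : 0 < δ) : ∃ ρ > 0, ∀ᶠ ε in 𝓝[>] (0 : ℝ), ∀ y ∈ ball x ρ,
      |(∫ z, v z * G ε (y - z)) - v x| ≤ δ := by
  obtain ⟨ρ, h0, h1⟩ := ev_sub (inter_mem (hU.mem_nhds hx)
    (hv.continuousAt (hU.mem_nhds hx) (closedBall_mem_nhds _ h)))
  exact ⟨ρ, h0, h1.mono fun ε e y hy => (hG ε e.1).avg hU hv fun z k => e.2 y hy ((hG ε e.1).mem k)⟩

theorem avg_lim (hU : IsOpen U) (hG : ∀ ε > 0, Ml ε c (G ε)) (hv : ContinuousOn v U) (hx : x ∈ U)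
    {u : ℝ → ℝ} (hu : ∀ ε > 0, closedBall x (2 * ε) ⊆ U → u ε = ∫ z, v z * G ε (x - z)) :
    Tendsto u (𝓝[>] 0) (𝓝 (v x)) := by
  obtain ⟨ρ, h0, h1⟩ := ev_sub (hU.mem_nhds hx)
  refine Metric.tendsto_nhds.2 fun δ h => ?_
  obtain ⟨r, r0, r1⟩ := avg_loc hU hG hv hx (half_pos h)
  filter_upwards [h1, r1] with ε e k
  rw [hu ε e.1 (e.2 x (mem_ball_self h0))]
  exact (k x (mem_ball_self r0)).trans_lt (half_lt_self h)

variable {ι W : Type} [Fintype ι] [MeasurableSpace W] {s : Sy n ι W} {f : ι → E n → ℝ}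

theorem rep (R : s.Rep U f) (T : Tst U φ) (α : ι) : s.pr α φ = ∫ x, f α x * φ x :=
  R.2 α φ T.sm.continuous T.cpt T.sub

theorem tst (g : Ml ε c H) (e : closedBall y (2 * ε) ⊆ U) : Tst U fun z => H (y - z) :=
  g.rfl fun _ k => e (g.mem k)

theorem u_lim (h : s.Ok U) (R : s.Rep U f) (hG : ∀ ε > 0, Ml ε c (G ε)) (hx : x ∈ U) (α : ι) :
    Tendsto (fun ε => s.u α (G ε) x) (𝓝[>] 0) (𝓝 (f α x)) :=
  avg_lim h.opn hG (R.1 α) hx fun ε e k => rep R (tst (hG ε e) k) α

variable (s f) in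
/-- The second derivatives. -/
def hh (α : ι) (a b : Fin n) (y : E n) : ℝ :=
  ∑ β, (f β y * s.B α a b β y - ∑ k, pd k (fun z => f β z * s.A α a b β k z) y)

theorem cd_hh (h : s.Ok U) (hf : ∀ β, ContDiffOn ℝ (m + 1 : ℕ) (f β) U) (α : ι) (a b : Fin n) :
    ContDiffOn ℝ m (hh s f α a b) U :=
  ContDiffOn.sum fun β _ => (((hf β).of_le (by simp)).mul ((h.sB α a b β).of_le (le_inf _))).sub
    (ContDiffOn.sum fun k _ => cd_pd h.opn ((hf β).mul ((h.sA α a b β k).of_le (le_inf _))) k)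

theorem weak (h : s.Ok U) (R : s.Rep U f) (hf : ∀ β, ContDiffOn ℝ (m + 1 : ℕ) (f β) U)
    (T : Tst U φ) {α : ι} {a b : Fin n} (e : s.df α a b φ = 0) :
    s.pr α (pd a (pd b φ)) = ∫ y, hh s f α a b y * φ y := by
  have cA := fun β k => (hf β).mul ((h.sA α a b β k).of_le (le_inf _))
  have cB : ∀ β, ContinuousOn (fun y => f β y * s.B α a b β y) U := fun β =>
    (hf β).continuousOn.mul (h.sB α a b β).continuousOn
  have i1 := fun β k => ig h.opn (cd_pd h.opn (cA β k) k).continuousOn T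
  have i2 := fun β => ig h.opn (cB β) T
  have i3 := fun β k => ig h.opn (cA β k).continuousOn (T.pd k)
  have sp : ∀ β, tsupport (fun x => ∑ k, s.A α a b β k x * pd k φ x + s.B α a b β x * φ x) ⊆
      tsupport φ := fun β => closure_minimal (fun x hx => by_contra fun k => hx (by
    have : ∀ j, pd j φ x = 0 := fun j =>
      image_eq_zero_of_notMem_tsupport fun k' => k (pd_supp T.b1.dif j k')
    simp [this, image_eq_zero_of_notMem_tsupport k])) (isClosed_tsupport _)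
  rw [sub_eq_zero.1 e]
  simp only [hh, Finset.sum_mul, sub_mul]
  rw [integral_finsetSum _ fun β _ => (i2 β).sub' (integrable_finsetSum _ fun k _ => i1 β k)]
  refine Finset.sum_congr rfl fun β _ => ?_
  rw [R.2 β _ ((continuous_finsetSum _ fun k _ => cont_mul h.opn (h.sA α a b β k).continuousOn
    (T.pd k).sm.continuous (T.pd k).sub).fun_add (cont_mul h.opn (h.sB α a b β).continuousOn
    T.sm.continuous T.sub)) (T.cpt.of_isClosed_subset (isClosed_tsupport _) (sp β))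
    ((sp β).trans T.sub), integral_sub (i2 β) (integrable_finsetSum _ fun k _ => i1 β k),
    integral_finsetSum _ fun k _ => i1 β k]
  simp only [mul_add, Finset.mul_sum, ← mul_assoc]
  rw [integral_add (integrable_finsetSum _ fun k _ => i3 β k) (i2 β),
    integral_finsetSum _ fun k _ => i3 β k]
  simp only [fun k => ibp h.opn (cA β k) T k, Finset.sum_neg_distrib]
  ring

/-- One more derivative. -/
theorem step (h : s.Ok U) (R : s.Rep U f) (e : ∀ α a b φ, Tst U φ → s.df α a b φ = 0)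
    (hf : ∀ β, ContDiffOn ℝ (m + 1 : ℕ) (f β) U) (α : ι) : ContDiffOn ℝ (m + 1 + 1 : ℕ) (f α) U := by
  obtain ⟨c, -, hc⟩ := ex_ml (0 : E n) (by simp; norm_num)
  choose! G hG _ using hc
  refine cd_cv h.opn (g := fun b => pd b (f α)) (fun x hx => ?_) fun b =>
    cd_cv h.opn (g := fun a => hh s f α a b) (fun x hx => ?_) fun a => cd_hh h hf α a b
  · rw [← fd_cv (dif h.opn (hf α) hx)]
    exact (dif h.opn (hf α) hx).hasFDerivAt
  refine der_lim (l := 𝓝[>] (0 : ℝ)) (u := fun ε => s.u α (pd b (G ε)))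
    (eventually_mem_nhdsWithin.mono fun ε k => (h.b1 ((hG ε k).tst.pd b).b1 α).dif)
    ((h.opn.eventually_mem hx).mono fun y hy => avg_lim h.opn hG (cd_pd h.opn (hf α) b).continuousOn
      hy fun ε k sb => ?_) fun δ d => ?_
  · have T := tst (hG ε k) sb
    rw [← neg_inj, ← ibp h.opn (hf α) T b, ← rep R (T.pd b), pd_rfl (hG ε k).tst.b1.dif]
    simp [Sy.u, ml, pr, Sy.pr, integral_neg]
  obtain ⟨ρ, r0, r1⟩ := ev_sub (h.opn.mem_nhds hx)
  choose r r2 r3 using fun a => avg_loc h.opn hG (cd_hh h hf α a b).continuousOn hx d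
  obtain ⟨t, t0, t1⟩ := Metric.mem_nhds_iff.1 (inter_mem (ball_mem_nhds x r0)
    (iInter_mem.2 fun a => ball_mem_nhds x (r2 a)))
  refine ⟨t, t0, ?_⟩
  filter_upwards [r1, eventually_all.2 r3] with ε k1 k2 y hy a
  have T := tst (hG ε k1.1) (k1.2 y (t1 hy).1)
  have := k2 a y (mem_iInter.1 (t1 hy).2 a)
  rw [← weak h R hf T (e α a b _ T), Sy.pd2_rfl (hG ε k1.1).tst] at this
  rw [h.pd_u ((hG ε k1.1).tst.pd b).b1]
  exact this

theorem u_le (h : s.Ok U) (R : s.Rep U f) (g : Ml ε c H) {α : ι} {M : ℝ}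
    (e : ∀ z ∈ closedBall y (2 * ε), z ∈ U ∧ |f α z| ≤ M) : |s.u α H y| ≤ M := by
  have := g.avg h.opn (R.1 α) (a := 0) (x := y) fun z k => by simpa using e z (g.mem k)
  rwa [sub_zero, ← rep R (tst g fun z k => (e z k).1)] at this

theorem u_lip (h : s.Ok U) (R : s.Rep U f) (g : Ml ε c H) {α : ι} {L : ℝ≥0} {r : ℝ}
    (sb : ball x r ⊆ U) (l : LipschitzOnWith L (f α) (ball x r)) (e : 2 * ε < r) (k : Fin n) :
    |s.u α (pd k H) x| ≤ L := by
  rw [← h.pd_u g.tst.b1]
  refine (pd_le ((h.b1 g.tst.b1 α).dif x) k).trans (norm_fderiv_le_of_lip' ℝ L.2 ?_)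
  obtain ⟨t, e1, e2⟩ := exists_between e
  filter_upwards [ball_mem_nhds x (sub_pos.2 e2)] with y hy
  have m1 : ∀ z ∈ ball x t, z + (y - x) ∈ ball x r := fun z hz => by
    have := norm_add_le (z - x) (y - x)
    rw [mem_ball_iff_norm] at *
    rw [add_sub_right_comm]
    linarith
  have m2 := ball_subset_ball (x := x) e2.le
  have m3 := closedBall_subset_ball (x := x) e1
  have c1 : ContinuousOn (fun z => f α (z + (y - x))) (ball x t) :=
    (R.1 α).comp (by fun_prop) fun z hz => sb (m1 z hz)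
  have c2 := (R.1 α).mono (m2.trans sb)
  have T := tst g m3
  have := g.avg isOpen_ball (c1.sub c2) (a := 0) (d := L * ‖y - x‖) (x := x) fun z k =>
    ⟨m3 (g.mem k), by simpa using l.norm_sub_le (m1 z (m3 (g.mem k))) (m2 (m3 (g.mem k)))⟩
  simp only [Pi.sub_apply, sub_mul, sub_zero] at this
  rw [integral_sub (ig isOpen_ball c1 T) (ig isOpen_ball c2 T), ← rep R (T.mono (m2.trans sb))]
    at this
  have k : s.u α H y = ∫ z, f α (z + (y - x)) * H (x - z) := by
    rw [show s.u α H y = _ from rep R (tst g ((closedBall_subset_ball' (by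
      linarith [mem_ball.1 hy])).trans sb)) α, ← integral_add_right_eq_self _ (y - x)]
    congr 1 with z
    congr 2
    abel
  rw [k]
  exact this

/-- Uniform bounds for the regularisations. -/
theorem bds (h : s.Ok U) (R : s.Rep U f) (e : ∀ α a b φ, Tst U φ → s.df α a b φ = 0)
    (l : ∀ α, LocallyLipschitzOn U (f α)) (hG : ∀ ε > 0, Ml ε c (G ε)) (hx : x ∈ U) :
    ∃ r > 0, ball x r ⊆ U ∧ ∃ C > 0, ∀ᶠ ε in 𝓝[>] (0 : ℝ), ∀ α, ∀ y ∈ ball x r, ∀ b,
      |s.u α (pd b (G ε)) y| ≤ C ∧ ∀ a, |s.u α (pd a (pd b (G ε))) y| ≤ C := by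
  choose L t ht hL using fun α => l α hx
  simp only [h.opn.nhdsWithin_eq hx] at ht
  have c1 : ∀ α, ∀ᶠ z in 𝓝 x, |f α z| ≤ ∑ β, |f β x| + 1 := fun α =>
    ((R.1 α).continuousAt (h.opn.mem_nhds hx)).abs.eventually_le_const
      ((Finset.single_le_sum (f := fun β => |f β x|) (fun _ _ => abs_nonneg _)
        (Finset.mem_univ α)).trans_lt (lt_add_one _))
  obtain ⟨r, r0, r1⟩ := nhds_basis_closedBall.mem_iff.1 (inter_mem (h.opn.mem_nhds hx)
    (inter_mem (iInter_mem.2 ht) (eventually_all.2 c1)))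
  have sb : closedBall x r ⊆ U := fun z k => (r1 k).1
  obtain ⟨K, hK⟩ := (h.ev_cf (isCompact_closedBall x r) (convex_closedBall x r) sb).exists
  have K0 := zero_le_one.trans hK.one
  have c0 := Sy.Ml.c_nn (hG 1 one_pos) one_pos
  generalize hM : ∑ β, |f β x| + 1 = M at *
  have M0 : 0 < M := hM ▸ by positivity
  let S : ℝ := ∑ β, (M + ∑ _k : Fin n, (L β : ℝ))
  refine ⟨r / 4, by positivity, (ball_subset_closedBall.trans (closedBall_subset_closedBall
    (by linarith))).trans sb, S + K * S + Fintype.card ι * (K * (K * c * (2 * n + 1))) *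
      (M * volume.real (ball (0 : E n) 1)) + 1, by positivity, ?_⟩
  filter_upwards [Ioo_mem_nhdsGT (show 0 < r / 8 by positivity)] with ε k α y hy b
  have g := hG ε k.1
  have b1 : ∀ β, ∀ z ∈ closedBall y ε, |s.u β (G ε) z| ≤ M := fun β z hz => u_le h R g fun w hw => by
    have := r1 (closedBall_subset_closedBall' (x := z) (y := x) (by
      linarith [dist_triangle z y x, mem_ball.1 hy, mem_closedBall.1 hz, k.2]) hw)
    exact ⟨this.1, this.2.2 β⟩
  have s2 : ball y (r / 2) ⊆ closedBall x r := (ball_subset_ball' (by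
    linarith [mem_ball.1 hy])).trans ball_subset_closedBall
  have b2 : ∀ β j, |s.u β (pd j (G ε)) y| ≤ L β := fun β => u_lip h R g (s2.trans sb)
    ((hL β).mono fun z hz => mem_iInter.1 (r1 (s2 hz)).2.1 β) (by linarith [k.2])
  have b3 : s.Q (G ε) y ≤ S := Finset.sum_le_sum fun β _ =>
    add_le_add (b1 β y (mem_closedBall_self k.1.le)) (Finset.sum_le_sum fun j _ => b2 β j)
  have b4 : s.av ε (G ε) y ≤ M * volume.real (ball (0 : E n) 1) := by
    have := norm_setIntegral_le_of_norm_le_const (μ := volume) (f := s.u s.o (G ε))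
      measure_closedBall_lt_top (b1 s.o)
    rw [Measure.addHaar_real_closedBall _ _ k.1.le, finrank_euclideanSpace_fin] at this
    rw [Sy.av, inv_pow, inv_mul_le_iff₀ (pow_pos k.1 n)]
    linarith [le_abs_self (∫ y in closedBall y ε, s.u s.o (G ε) y), Real.norm_eq_abs
      (∫ y in closedBall y ε, s.u s.o (G ε) y)]
  have s3 : closedBall y (2 * ε) ⊆ closedBall x r := (closedBall_subset_ball (by
    linarith [k.2])).trans s2
  have S0 := Sy.Q_nn.trans b3
  have p0 : 0 ≤ Fintype.card ι * (K * (K * c * (2 * n + 1))) := by positivity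
  have p1 := mul_le_mul_of_nonneg_left b4 p0
  have p2 := mul_le_mul_of_nonneg_left b3 K0
  have p3 := mul_nonneg p0 (h.av_nn k.1 g.nn (x := y))
  refine ⟨?_, fun a => ?_⟩
  · have := (Finset.single_le_sum (f := fun j => |s.u α (pd j (G ε)) y|) (fun _ _ => abs_nonneg _)
      (Finset.mem_univ b)).trans ((Sy.le_Q1 α).trans b3)
    nlinarith [mul_nonneg K0 S0]
  have := h.comm hK sb g k.1 (s2 (mem_ball_self (by positivity))) (fun z j => s3 (g.mem j)) α a b
  rw [e α a b _ (tst g (s3.trans sb)), zero_sub, abs_neg] at this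
  linarith

/-- The first derivative. -/
theorem one (h : s.Ok U) (R : s.Rep U f) (e : ∀ α a b φ, Tst U φ → s.df α a b φ = 0)
    (l : ∀ α, LocallyLipschitzOn U (f α)) (α : ι) : ContDiffOn ℝ (0 + 1 : ℕ) (f α) U := by
  obtain ⟨c, -, hc⟩ := ex_ml (0 : E n) (by simp; norm_num)
  choose! G hG _ using hc
  intro x hx
  obtain ⟨r, r0, sb, C, C0, hC⟩ := bds h R e l hG hx
  let F := Ultrafilter.of (𝓝[>] (0 : ℝ))
  have hF : (F : Filter ℝ) ≤ 𝓝[>] 0 := Ultrafilter.of_le _
  have ps : ∀ᶠ ε in (F : Filter ℝ), 0 < ε := hF self_mem_nhdsWithin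
  have ex : ∀ b, ∀ y ∈ ball x r, ∃ g, Tendsto (fun ε => s.u α (pd b (G ε)) y) F (𝓝 g) :=
    fun b y hy => (isCompact_Icc.ultrafilter_le_nhds (F.map fun ε => s.u α (pd b (G ε)) y)
      (le_principal_iff.2 ((hC.filter_mono hF).mono fun ε k => abs_le.1 (k α y hy b).1))).imp
        fun _ k => k.2
  choose! g hg using ex
  have lp : ∀ᶠ ε in (F : Filter ℝ), ∀ b, ∀ y ∈ ball x r, ∀ z ∈ ball x r,
      |s.u α (pd b (G ε)) z - s.u α (pd b (G ε)) y| ≤ n * C * ‖z - y‖ := by
    filter_upwards [ps, hC.filter_mono hF] with ε k1 k2 b y hy z hz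
    have T := ((hG ε k1).tst.pd b).b1
    refine (convex_ball x r).norm_image_sub_le_of_norm_fderiv_le (fun w _ => (h.b1 T α).dif w)
      (fun w hw => (fd_le ((h.b1 T α).dif w)).trans ?_) hy hz
    simpa [h.pd_u T] using Finset.sum_le_card_nsmul Finset.univ _ C fun a _ => (k2 α w hw b).2 a
  refine ((cd_cv isOpen_ball (g := g) (fun y hy => ?_) fun b => ?_).contDiffAt
    (ball_mem_nhds x r0)).contDiffWithinAt
  · refine der_lim (l := F) (u := fun ε => s.u α (G ε))
      (ps.mono fun ε k => (h.b1 (hG ε k).tst.b1 α).dif)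
      ((h.opn.eventually_mem (sb hy)).mono fun z hz => (u_lim h R hG hz α).mono_left hF)
      fun δ d => ?_
    obtain ⟨t, t0, t1⟩ := Metric.mem_nhds_iff.1 (inter_mem (isOpen_ball.mem_nhds hy)
      (ball_mem_nhds y (show 0 < δ / 2 / (n * C + 1) by positivity)))
    refine ⟨t, t0, ?_⟩
    filter_upwards [ps, lp, eventually_all.2 fun b => Metric.tendsto_nhds.1 (hg b y hy) _
      (half_pos d)] with ε k1 k2 k3 z hz b
    rw [h.pd_u (hG ε k1).tst.b1]
    have a1 := k2 b y hy z (t1 hz).1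
    have a2 := mem_ball_iff_norm.1 (t1 hz).2
    rw [lt_div_iff₀ (by positivity)] at a2
    refine (abs_sub_le _ (s.u α (pd b (G ε)) y) _).trans ?_
    nlinarith [k3 b, Real.dist_eq (s.u α (pd b (G ε)) y) (g b y), norm_nonneg (z - y)]
  refine contDiffOn_zero.2 (LipschitzOnWith.continuousOn (K := ⟨n * C, by positivity⟩)
    (.of_dist_le_mul fun z hz y hy => ?_))
  rw [dist_eq_norm z]
  exact le_of_tendsto ((hg b z hz).sub (hg b y hy)).abs (lp.mono fun ε k => k b y hy z hz)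

end Sm

open Sm in
theorem smo_of (H : REG) : SMO := fun n ι W _ _ s U f h e R α => by
  obtain ⟨f', R', l⟩ := H n ι W s U h ⟨fun α _ a => e α a a, fun a φ T _ => (e _ a a φ T).ge⟩
  obtain ⟨c, -, hc⟩ := ex_ml (0 : E n) (by simp; norm_num)
  choose! G hG _ using hc
  have k : ∀ m : ℕ, ∀ β, ContDiffOn ℝ (m + 1 : ℕ) (f' β) U := fun m =>
    m.rec (one h R' e l) fun _ => step h R' e
  exact (contDiffOn_infty.2 fun m => (k m α).of_le (by simp)).congr fun x hx =>
    tendsto_nhds_unique (u_lim h R hG hx α) (u_lim h R' hG hx α)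

end Vale.Agent.P366RB
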