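import Vale.Agent.P366RB.Cov
import Mathlib.LinearAlgebra.Matrix.SchurComplement

/-!
# P366RB: the first order quantities of static Killing initial data
-/

open Filter Topology Set
open scoped ContDiff
open Vale.Agent.P366 Vale.Agent.P366.Stmt Vale.Agent.P366Z

noncomputable section

namespace Vale.Agent.P366RB

variable {n : ℕ} {g K a : Field n} {N : E n → ℝ} {X p : Fin n → E n → ℝ} {y : E n}

theorem sm2 {F : Fin n → ℝ} (α β : ℝ) (f h : Fin n → ℝ) (e : ∀ k, F k = α * f k + β * h k) :
    ∑ k, F k = α * ∑ k, f k + β * ∑ k, h k := by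
  simp only [e, Finset.sum_add_distrib, Finset.mul_sum]

theorem sm3 {F : Fin n → ℝ} (α β γ : ℝ) (f h u : Fin n → ℝ)
    (e : ∀ k, F k = α * f k + β * h k + γ * u k) :
    ∑ k, F k = α * ∑ k, f k + β * ∑ k, h k + γ * ∑ k, u k := by
  simp only [e, Finset.sum_add_distrib, Finset.mul_sum]

theorem sm4 {F : Fin n → ℝ} (α β γ δ : ℝ) (f h u v : Fin n → ℝ)
    (e : ∀ k, F k = α * f k + β * h k + γ * u k + δ * v k) :
    ∑ k, F k = α * ∑ k, f k + β * ∑ k, h k + γ * ∑ k, u k + δ * ∑ k, v k := by
  simp only [e, Finset.sum_add_distrib, Finset.mul_sum]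

/-- the squared length of the Killing field -/
def lam (g : Field n) (N : E n → ℝ) (X : Fin n → E n → ℝ) (y : E n) : ℝ := N y ^ 2 - sq g X y

/-- the pairing -/
def dt (p X : Fin n → E n → ℝ) (y : E n) : ℝ := ∑ i, p i y * X i y

/-- the contraction -/
def cn (K : Field n) (X : Fin n → E n → ℝ) (j : Fin n) (y : E n) : ℝ := ∑ k, K y j k * X k y

theorem sq_eq (g : Field n) (X : Fin n → E n → ℝ) : sq g X = dt (lo g X) X := funext fun y => by
  simp only [sq, dt, lo, Finset.sum_mul]
  exact Finset.sum_congr rfl fun _ _ => Finset.sum_congr rfl fun _ _ => by ring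

theorem dt_hi (hg : Met g) (w z : Fin n → E n → ℝ) (y : E n) :
    dt w (hi g z) y = dt z (hi g w) y := by
  simp only [dt, hi, Finset.mul_sum]
  rw [Finset.sum_comm]
  exact Finset.sum_congr rfl fun i _ => Finset.sum_congr rfl fun j _ => by rw [hg.up_sy j i]; ring

theorem dt_lo (hg : Met g) (y : E n) : dt (lo g X) (hi g p) y = dt p X y := by
  rw [dt_hi hg, hi_lo hg]

theorem dt_cn (hK : ∀ i j, K y i j = K y j i) (A B : Fin n → E n → ℝ) :
    dt (cn K A) B y = dt (cn K B) A y := by
  simp only [dt, cn, Finset.sum_mul]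
  rw [Finset.sum_comm]
  exact Finset.sum_congr rfl fun i _ => Finset.sum_congr rfl fun j _ => by rw [hK j i]; ring

theorem cd_lo (hg : Met g) (hX : ∀ i, ContDiffAt ℝ ∞ (X i) y) (i : Fin n) :
    ContDiffAt ℝ ∞ (lo g X i) y :=
  ContDiffAt.sum fun j _ => (hg.sm i j).contDiffAt.mul (hX j)

theorem cd_hi (hg : Met g) (hX : ∀ i, ContDiffAt ℝ ∞ (X i) y) (i : Fin n) :
    ContDiffAt ℝ ∞ (hi g X i) y :=
  ContDiffAt.sum fun j _ => (hg.sm_up i j).contDiffAt.mul (hX j)

theorem cd_dt (hp : ∀ i, ContDiffAt ℝ ∞ (p i) y) (hX : ∀ i, ContDiffAt ℝ ∞ (X i) y) :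
    ContDiffAt ℝ ∞ (dt p X) y := ContDiffAt.sum fun j _ => (hp j).mul (hX j)

theorem df_of {f : E n → ℝ} (h : ContDiffAt ℝ ∞ f y) : Df f y := h.differentiableAt (by simp)

namespace Kid

variable (k : Kid g K a N X p y) (hg : Met g)
include k

theorem lam0 : 0 < lam g N X y := sub_pos.2 k.l0

theorem fN : Df N y := df_of k.smN

theorem fX (i : Fin n) : Df (X i) y := df_of (k.smX i)

theorem fp (i : Fin n) : Df (p i) y := df_of (k.smp i)

theorem a_eq (i j : Fin n) : a y i j = (p i y * lo g X j y - lo g X i y * p j y) / N y := by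
  rw [← k.st, mul_div_cancel_left₀ _ k.N0.ne']

include hg

theorem cd_lam : ContDiffAt ℝ ∞ (lam g N X) y := by
  have := (k.smN.pow 2).sub (cd_dt (cd_lo hg k.smX) k.smX)
  rwa [← sq_eq] at this

theorem fl : Df (lam g N X) y := df_of (k.cd_lam hg)

theorem cd_pot : ContDiffAt ℝ ∞ (pot g N X) y := (k.cd_lam hg).sqrt k.lam0.ne'

theorem cd_quo (i j : Fin n) : ContDiffAt ℝ ∞ (fun x => quo g N X x i j) y :=
  (hg.sm i j).contDiffAt.add (((cd_lo hg k.smX i).mul (cd_lo hg k.smX j)).div (k.cd_lam hg)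
    k.lam0.ne')

theorem cS (i j : Fin n) : cC g (lo g X) i j y =
    (p i y * lo g X j y - lo g X i y * p j y) / N y - N y * K y i j := by
  rw [cC_lo hg k.fX, ← k.a_eq]
  exact k.dX i j

theorem cA (i m : Fin n) : cV g X i m y =
    (p i y * X m y - lo g X i y * hi g p m y) / N y - N y * hi g (fun j x => K x i j) m y := by
  have h := cV_hi hg (df_lo hg k.fX) i m
  rw [hi_lo hg] at h
  rw [h, sm3 (p i y / N y) (-(lo g X i y / N y)) (-N y) (fun l => up g m l y * lo g X l y)
    (fun l => up g m l y * p l y) (fun l => up g m l y * K y i l) fun l => by rw [k.cS hg]; ring]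
  have e := congrFun (congrFun (hi_lo hg X) m) y
  simp only [hi] at e ⊢
  rw [e]; ring

/-- the pairing of a covector with the derivative of `X` -/
theorem wA (w : Fin n → E n → ℝ) (i : Fin n) : ∑ m, w m y * cV g X i m y =
    (p i y * dt w X y - lo g X i y * dt w (hi g p) y) / N y - N y * cn K (hi g w) i y := by
  rw [sm3 (p i y / N y) (-(lo g X i y / N y)) (-N y) (fun m => w m y * X m y)
    (fun m => w m y * hi g p m y) (fun m => w m y * hi g (fun j x => K x i j) m y)
    fun m => by rw [k.cA hg]; ring]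
  have e : ∑ m, w m y * hi g (fun j x => K x i j) m y = cn K (hi g w) i y := dt_hi hg _ _ y
  rw [e]
  simp only [dt]
  ring

theorem divX : ∑ i, cV g X i i y = -(N y * tr g K y) := by
  rw [sm3 (1 / N y) (-(1 / N y)) (-N y) (fun m => p m y * X m y)
    (fun m => lo g X m y * hi g p m y) (fun m => hi g (fun j x => K x m j) m y)
    fun m => by rw [k.cA hg]; ring]
  have e : ∑ m, lo g X m y * hi g p m y = ∑ m, p m y * X m y := dt_lo hg y
  rw [e]
  simp only [hi, tr]
  ring

theorem divp : ∑ i, cV g (hi g p) i i y = 0 := by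
  simp only [cV_hi hg k.fp]
  exact k.dv

theorem dl (i : Fin n) : pd i (lam g N X) y =
    2 * (lam g N X y * p i y + dt p X y * lo g X i y) / N y := by
  have h1 : pd i (lam g N X) y = pd i (fun x => N x * N x - dt (lo g X) X x) y := by
    congr 1; funext x; rw [lam, sq_eq]; ring
  have h2 : pd i (dt (lo g X) X) y = _ := pd_dot (g := g) (df_lo hg k.fX) k.fX i
  rw [k.wA hg, sm3 (p i y / N y) (-(lo g X i y / N y)) (-N y) (fun m => lo g X m y * X m y)
    (fun m => p m y * X m y) (fun m => K y i m * X m y) fun m => by rw [k.cS hg]; ring,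
    hi_lo hg, dt_lo hg] at h2
  rw [h1, pd_sub (k.fN.fun_mul k.fN) (df_of (cd_dt (cd_lo hg k.smX) k.smX)), pd_mul k.fN k.fN,
    h2, k.dN, lam, sq_eq]
  have := k.N0.ne'
  simp only [dt, cn]
  field_simp
  ring

theorem ds (i : Fin n) : pd i (dt p X) y = ∑ m, cC g p i m y * X m y +
    ((p i y * dt p X y - lo g X i y * dt p (hi g p) y) / N y - N y * cn K (hi g p) i y) := by
  rw [← k.wA hg]
  exact pd_dot k.fp k.fX i

omit hg in
theorem pot0 : 0 < pot g N X y := Real.sqrt_pos.2 k.lam0

omit hg in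
theorem pot_sq : pot g N X y ^ 2 = lam g N X y := Real.sq_sqrt k.lam0.le

theorem dV (i : Fin n) : pd i (pot g N X) y =
    pot g N X y / N y * p i y + dt p X y / (N y * pot g N X y) * lo g X i y := by
  have h := pd_comp (Real.hasDerivAt_sqrt k.lam0.ne') (k.fl hg) i
  have h' : pd i (pot g N X) y = 1 / (2 * pot g N X y) * pd i (lam g N X) y := h
  rw [h', k.dl hg, ← k.pot_sq]
  have := k.N0.ne'
  have := k.pot0.ne'
  field_simp

theorem mul_inv (i j : Fin n) :
    ∑ m, (up g i m y - X i y * X m y / N y ^ 2) * quo g N X y m j = if i = j then 1 else 0 := by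
  rw [sm4 1 (lo g X j y / lam g N X y) (-(X i y / N y ^ 2))
    (-(X i y / N y ^ 2 * (lo g X j y / lam g N X y))) (fun m => up g i m y * g y m j)
    (fun m => up g i m y * lo g X m y) (fun m => g y j m * X m y) (fun m => lo g X m y * X m y)
    fun m => by rw [quo, hg.sy y j m, lam]; ring, hg.up_mul]
  have e1 : ∑ m, up g i m y * lo g X m y = X i y := congrFun (congrFun (hi_lo hg X) i) y
  have e2 : ∑ m, g y j m * X m y = lo g X j y := rfl
  have e3 : ∑ m, lo g X m y * X m y = N y ^ 2 - lam g N X y := by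
    rw [lam, sq_eq, sub_sub_cancel]; rfl
  rw [e1, e2, e3]
  have := k.N0.ne'
  have := k.lam0.ne'
  field_simp
  ring

theorem up_quo (i j : Fin n) : up (quo g N X) i j y = up g i j y - X i y * X j y / N y ^ 2 := by
  have h : (mat (quo g N X) y)⁻¹ = Matrix.of fun i j => up g i j y - X i y * X j y / N y ^ 2 :=
    Matrix.inv_eq_left_inv (by
      ext i j
      rw [Matrix.mul_apply, Matrix.one_apply]
      exact k.mul_inv hg i j)
  exact congrFun (congrFun h i) j

theorem gr_quo (i : Fin n) :
    N y * gr (quo g N X) (pot g N X) i y = pot g N X y * hi g p i y := by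
  rw [gr, sm4 (pot g N X y / N y) (dt p X y / (N y * pot g N X y))
    (-(X i y / N y ^ 2 * (pot g N X y / N y)))
    (-(X i y / N y ^ 2 * (dt p X y / (N y * pot g N X y)))) (fun m => up g i m y * p m y)
    (fun m => up g i m y * lo g X m y) (fun m => p m y * X m y) (fun m => lo g X m y * X m y)
    fun m => by rw [k.up_quo hg, k.dV hg]; ring]
  have e1 : ∑ m, up g i m y * lo g X m y = X i y := congrFun (congrFun (hi_lo hg X) i) y
  have e3 : ∑ m, lo g X m y * X m y = N y ^ 2 - pot g N X y ^ 2 := by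
    rw [k.pot_sq, lam, sq_eq, sub_sub_cancel]; rfl
  rw [e1, e3]
  have := k.N0.ne'
  have := k.pot0.ne'
  simp only [hi, dt]
  field_simp
  ring

omit hg in
theorem dens_quo : pot g N X y * dens (quo g N X) y = N y * dens g y := by
  have h1 : mat (quo g N X) y = mat g y * (1 + Matrix.replicateCol Unit (fun i => X i y) *
      Matrix.replicateRow Unit fun i => lo g X i y / lam g N X y) := by
    ext i j
    rw [mul_add, mul_one]
    simp only [Matrix.add_apply, Matrix.mul_apply, Matrix.replicateCol_apply,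
      Matrix.replicateRow_apply, Finset.univ_unique, Finset.sum_singleton, ← mul_assoc,
      ← Finset.sum_mul]
    simp only [mat, quo, lam, lo, mul_div_assoc]
  have e3 : (fun i => lo g X i y / lam g N X y) ⬝ᵥ (fun i => X i y) =
      (N y ^ 2 - lam g N X y) / lam g N X y := by
    rw [lam, sub_sub_cancel, sq_eq, dt, Finset.sum_div]
    exact Finset.sum_congr rfl fun _ _ => by ring
  have h2 : (mat (quo g N X) y).det = (N y / pot g N X y) ^ 2 * (mat g y).det := by
    rw [h1, Matrix.det_mul, Matrix.det_one_add_replicateCol_mul_replicateRow, e3, div_pow,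
      k.pot_sq]
    have := k.lam0.ne'
    field_simp
    ring
  rw [dens, dens, h2, Real.sqrt_mul (sq_nonneg _), Real.sqrt_sq (div_pos k.N0 k.pot0).le]
  have := k.pot0.ne'
  field_simp

theorem ip_quo : ip (quo g N X) (pot g N X) (pot g N X) y =
    ∑ i, ∑ j, up g i j y * p i y * p j y - normSq g a y / 2 := by
  have h0 := k.N0.ne'
  have hV := k.pot0.ne'
  have e0 : ∀ i, gr (quo g N X) (pot g N X) i y = pot g N X y / N y * hi g p i y := fun i => by
    rw [div_mul_eq_mul_div, ← k.gr_quo hg, mul_div_cancel_left₀ _ h0]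
  have e1 : ∑ i, ∑ j, up g i j y * p i y * p j y = dt p (hi g p) y := by
    simp only [dt, hi, Finset.mul_sum]
    exact Finset.sum_congr rfl fun _ _ => Finset.sum_congr rfl fun _ _ => by ring
  have e2 : ∀ i j, ∑ m, up g i m y * ∑ l, a y m l * up g j l y =
      (hi g p i y * X j y - X i y * hi g p j y) / N y := fun i j => by
    have b1 : ∀ i, ∑ m, up g i m y * lo g X m y = X i y := fun i =>
      congrFun (congrFun (hi_lo hg X) i) y
    rw [sm2 (X j y / N y) (-(hi g p j y / N y)) (fun m => up g i m y * p m y)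
      (fun m => up g i m y * lo g X m y) fun m => by
        rw [sm2 (p m y / N y) (-(lo g X m y / N y)) (fun l => up g j l y * lo g X l y)
          (fun l => up g j l y * p l y) fun l => by rw [k.a_eq]; ring, b1]
        simp only [hi]; ring, b1]
    simp only [hi]; ring
  have e3 : normSq g a y = ∑ i, ∑ j, a y i j * ∑ m, up g i m y * ∑ l, a y m l * up g j l y := by
    simp only [normSq, Finset.mul_sum]
    exact Finset.sum_congr rfl fun i _ => Finset.sum_congr rfl fun j _ =>
      Finset.sum_congr rfl fun k _ => Finset.sum_congr rfl fun l _ => by ring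
  have e4 : ∑ m, lo g X m y * X m y = N y ^ 2 - pot g N X y ^ 2 := by
    rw [k.pot_sq, lam, sq_eq, sub_sub_cancel]; rfl
  have e5 : ∑ m, lo g X m y * hi g p m y = dt p X y := dt_lo hg y
  have e6 : ∑ m, p m y * X m y = dt p X y := rfl
  have e7 : ∑ m, p m y * hi g p m y = dt p (hi g p) y := rfl
  have e8 : normSq g a y = 2 * (dt p (hi g p) y * (N y ^ 2 - pot g N X y ^ 2) - dt p X y ^ 2) /
      N y ^ 2 := by
    rw [e3, sm4 ((N y ^ 2 - pot g N X y ^ 2) / N y ^ 2) (-(dt p X y / N y ^ 2))
      (-(dt p X y / N y ^ 2)) (dt p (hi g p) y / N y ^ 2) (fun m => p m y * hi g p m y)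
      (fun m => p m y * X m y) (fun m => lo g X m y * hi g p m y) (fun m => lo g X m y * X m y)
      fun i => by
        rw [sm4 (p i y * hi g p i y / N y ^ 2) (-(p i y * X i y / N y ^ 2))
          (-(lo g X i y * hi g p i y / N y ^ 2)) (lo g X i y * X i y / N y ^ 2)
          (fun m => lo g X m y * X m y) (fun m => lo g X m y * hi g p m y)
          (fun m => p m y * X m y) (fun m => p m y * hi g p m y)
          fun j => by rw [e2, k.a_eq]; ring, e4, e5, e6, e7]
        ring, e4, e5, e6, e7]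
    ring
  rw [e1, e8, ip_eq_gr, sm2 ((pot g N X y / N y) ^ 2) (dt p X y / N y ^ 2)
    (fun m => p m y * hi g p m y) (fun m => lo g X m y * hi g p m y)
    fun m => by rw [k.dV hg, e0]; field_simp, e5, e7]
  field_simp
  ring

end Kid

end Vale.Agent.P366RB
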