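import Vale.Agent.P366RB.Sta1

/-!
# P366RB: the static equations
-/

open Filter Topology Set
open scoped ContDiff
open Vale.Agent.P366 Vale.Agent.P366.Stmt Vale.Agent.P366Z

noncomputable section

namespace Vale.Agent.P366RB

variable {n : ℕ} {g K a : Field n} {N : E n → ℝ} {X p : Fin n → E n → ℝ} {y : E n}

/-- the difference of the connections -/
def Cf (g K : Field n) (N : E n → ℝ) (X p : Fin n → E n → ℝ) (k i j : Fin n) (x : E n) : ℝ :=
  X k x * (-(N x)⁻¹ * K x i j) +
    hi g p k x * (-(N x * lam g N X x)⁻¹ * (lo g X i x * lo g X j x))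

theorem quo_eq (g : Field n) (N : E n → ℝ) (X : Fin n → E n → ℝ) : quo g N X =
    fun x i j => g x i j + (lam g N X x)⁻¹ * (lo g X i x * lo g X j x) := by
  funext x i j
  rw [quo, lam, div_eq_inv_mul]

theorem tr_Cf (hg : Met g) (hK : ∀ z i j, K z i j = K z j i) : (fun j x => ∑ k, Cf g K N X p k k j x) =
    fun j x => -(N x)⁻¹ * cn K X j x + -(N x * lam g N X x)⁻¹ * dt p X x * lo g X j x := by
  funext j x
  rw [sm2 (-(N x)⁻¹) (-(N x * lam g N X x)⁻¹ * lo g X j x) (fun m => K x j m * X m x)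
    (fun m => lo g X m x * hi g p m x) fun m => by rw [Cf, hK x m j]; ring]
  have e5 : ∑ m, lo g X m x * hi g p m x = dt p X x := dt_lo hg x
  rw [e5, cn]; ring

theorem sm6 {F : Fin n → ℝ} (α β γ δ ε ζ : ℝ) (f h u v w z : Fin n → ℝ)
    (e : ∀ k, F k = α * f k + β * h k + γ * u k + δ * v k + ε * w k + ζ * z k) :
    ∑ k, F k = α * ∑ k, f k + β * ∑ k, h k + γ * ∑ k, u k + δ * ∑ k, v k + ε * ∑ k, w k +
      ζ * ∑ k, z k := by
  simp only [e, Finset.sum_add_distrib, Finset.mul_sum]

theorem x2 (g : Field n) (N : E n → ℝ) (X : Fin n → E n → ℝ) (y : E n) :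
    ∑ m, lo g X m y * X m y = N y ^ 2 - lam g N X y := by
  rw [lam, sq_eq, sub_sub_cancel]; rfl

namespace Kid

variable (k : Kid g K a N X p y) (hg : Met g)
include k hg

theorem chr_quo (hK : ∀ i j, K y i j = K y j i) (m i j : Fin n) :
    chr (quo g N X) m i j y = chr g m i j y + Cf g K N X p m i j y := by
  have h0 := k.N0.ne'
  have hl := k.lam0.ne'
  have fl := df_lo hg k.fX
  have e1 : ∀ m i j, cK g (quo g N X) m i j y =
      -pd m (lam g N X) y / lam g N X y ^ 2 * (lo g X i y * lo g X j y) + (lam g N X y)⁻¹ *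
        (cC g (lo g X) m i y * lo g X j y + lo g X i y * cC g (lo g X) m j y) := fun m i j => by
    rw [quo_eq, cK_add (fun i j => (hg.sm i j).diff y)
      fun i j => ((k.fl hg).fun_inv hl).fun_mul ((fl i).fun_mul (fl j)), cK_g hg,
      cK_smul ((k.fl hg).fun_inv hl) fun i j => (fl i).fun_mul (fl j), cK_prod fl fl,
      pd_inv (k.fl hg) hl, zero_add]
  rw [chr_sub hg (fun i j => by rw [quo, quo, hg.sy y i j, mul_comm (lo g X i y)])
    (fun i j => by simp only [k.up_quo hg]; exact k.mul_inv hg i j)]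
  congr 1
  set α : ℝ := -2 * N y * K y i j / lam g N X y -
    2 * dt p X y * (lo g X i y * lo g X j y) / (N y * lam g N X y ^ 2) with hα
  set β : ℝ := -2 * (lo g X i y * lo g X j y) / (N y * lam g N X y) with hβ
  rw [sm4 α β (-(α * X m y / N y ^ 2)) (-(β * X m y / N y ^ 2))
    (fun l => up g m l y * lo g X l y) (fun l => up g m l y * p l y)
    (fun l => lo g X l y * X l y) (fun l => p l y * X l y) fun l => by
      simp only [k.up_quo hg, e1, k.cS hg, k.dl hg, hα, hβ, hK j i, hK l i, hK l j]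
      field_simp
      ring]
  have b1 : ∑ l, up g m l y * lo g X l y = X m y := congrFun (congrFun (hi_lo hg X) m) y
  have b2 : ∑ l, up g m l y * p l y = hi g p m y := rfl
  have b3 : ∑ l, p l y * X l y = dt p X y := rfl
  rw [b1, b2, b3, x2 g N, Cf, hα, hβ]
  field_simp
  ring

end Kid

theorem static (hg : Met g) (sK : ∀ i j, Smooth fun z => K z i j)
    (hK : ∀ z i j, K z i j = K z j i) (ev : ∀ᶠ z in 𝓝 y, Kid g K a N X p z) (i j : Fin n) :
    pot g N X y * P366Y.C.rc (quo g N X) y i j = hess (quo g N X) (pot g N X) y i j := by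
  have k := ev.self_of_nhds
  have h0 := k.N0.ne'
  have hl := k.lam0.ne'
  have hV := k.pot0.ne'
  have fl := df_lo hg k.fX
  have fh := df_hi hg k.fp
  have fK : ∀ i j, Df (fun z => K z i j) y := fun i j => (sK i j).diff y
  have fs : Df (dt p X) y := df_of (cd_dt k.smp k.smX)
  have fV : Df (pot g N X) y := df_of (k.cd_pot hg)
  have f1 : Df (fun x => -(N x)⁻¹) y := (k.fN.fun_inv h0).fun_neg
  have f2 : Df (fun x => -(N x * lam g N X x)⁻¹) y :=
    ((k.fN.fun_mul (k.fl hg)).fun_inv (mul_ne_zero h0 hl)).fun_neg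
  have g1 : ∀ i j, Df (fun x => -(N x)⁻¹ * K x i j) y := fun i j => f1.fun_mul (fK i j)
  have g2 : ∀ i j, Df (fun x => -(N x * lam g N X x)⁻¹ * (lo g X i x * lo g X j x)) y :=
    fun i j => f2.fun_mul ((fl i).fun_mul (fl j))
  have fu : ∀ j, Df (cn K X j) y := fun j =>
    DifferentiableAt.fun_sum fun m _ => (fK j m).fun_mul (k.fX m)
  have d1 : ∀ m, pd m (fun x => -(N x)⁻¹) y = (p m y - cn K X m y) / N y ^ 2 := fun m => by
    rw [pd_neg, pd_inv k.fN h0, k.dN, cn]; ring
  have d2 : ∀ m, pd m (fun x => -(N x * lam g N X x)⁻¹) y = ((p m y - cn K X m y) * lam g N X y +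
      2 * (lam g N X y * p m y + dt p X y * lo g X m y)) / (N y * lam g N X y) ^ 2 := fun m => by
    rw [pd_neg, pd_inv (k.fN.fun_mul (k.fl hg)) (mul_ne_zero h0 hl), pd_mul k.fN (k.fl hg), k.dN,
      k.dl hg, cn]
    field_simp
  have s1 : ∑ m, lo g X m y * hi g p m y = dt p X y := dt_lo hg y
  have s2 : ∑ m, p m y * X m y = dt p X y := rfl
  have s3 : ∑ m, p m y * hi g p m y = dt p (hi g p) y := rfl
  have s4 : ∑ m, cn K X m y * X m y = dt (cn K X) X y := rfl
  have s5 : ∑ m, cn K X m y * hi g p m y = dt (cn K X) (hi g p) y := rfl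
  have s6 : ∀ i, ∑ m, K y i m * X m y = cn K X i y := fun _ => rfl
  have s7 : ∀ i, ∑ m, K y i m * hi g p m y = cn K (hi g p) i y := fun _ => rfl
  have s8 := x2 g N X y
  have s9 := dt_cn (hK y) (hi g p) X
  have tA1 : ∑ m, cM g (fun k i j x => X k x * (-(N x)⁻¹ * K x i j)) m m i j y =
      -(N y)⁻¹ * K y i j * -(N y * tr g K y) + K y i j / N y ^ 2 * dt p X y +
        -(K y i j / N y ^ 2) * dt (cn K X) X y + -(N y)⁻¹ * ∑ m, X m y * cK g K m i j y := by
    rw [sm4 (-(N y)⁻¹ * K y i j) (K y i j / N y ^ 2) (-(K y i j / N y ^ 2)) (-(N y)⁻¹)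
      (fun m => cV g X m m y) (fun m => p m y * X m y) (fun m => cn K X m y * X m y)
      (fun m => X m y * cK g K m i j y) fun m => by
        rw [cM_prod k.fX g1, cK_smul f1 fK, d1]; ring, k.divX hg, s2, s4]
  have tA2 : ∑ m, cM g (fun k i j x => hi g p k x *
      (-(N x * lam g N X x)⁻¹ * (lo g X i x * lo g X j x))) m m i j y =
      lo g X i y * lo g X j y / (N y ^ 2 * lam g N X y) * dt p (hi g p) y +
        -(lo g X i y * lo g X j y / (N y ^ 2 * lam g N X y)) * dt (cn K X) (hi g p) y +
        (2 * dt p X y * (lo g X i y * lo g X j y) / (N y * lam g N X y) ^ 2 +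
          (p i y * lo g X j y + lo g X i y * p j y) / (N y ^ 2 * lam g N X y)) * dt p X y +
        lo g X j y / lam g N X y * cn K (hi g p) i y +
        lo g X i y / lam g N X y * cn K (hi g p) j y := by
    rw [sm6 (-(N y * lam g N X y)⁻¹ * (lo g X i y * lo g X j y))
      (lo g X i y * lo g X j y / (N y ^ 2 * lam g N X y))
      (-(lo g X i y * lo g X j y / (N y ^ 2 * lam g N X y)))
      (2 * dt p X y * (lo g X i y * lo g X j y) / (N y * lam g N X y) ^ 2 +
        (p i y * lo g X j y + lo g X i y * p j y) / (N y ^ 2 * lam g N X y))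
      (lo g X j y / lam g N X y) (lo g X i y / lam g N X y) (fun m => cV g (hi g p) m m y)
      (fun m => p m y * hi g p m y) (fun m => cn K X m y * hi g p m y)
      (fun m => lo g X m y * hi g p m y) (fun m => K y i m * hi g p m y)
      (fun m => K y j m * hi g p m y) fun m => by
        rw [cM_prod fh g2, cK_smul f2 fun i j => (fl i).fun_mul (fl j), cK_prod fl fl, d2,
          k.cS hg, k.cS hg, hK y m i, hK y m j]
        field_simp
        ring, k.divp hg, s1, s3, s5, s7, s7, mul_zero, zero_add]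
  have tA : ∑ m, cM g (Cf g K N X p) m m i j y = _ :=
    (Finset.sum_congr rfl fun m _ => cM_add (fun m i j => (k.fX m).fun_mul (g1 i j))
      (fun m i j => (fh m).fun_mul (g2 i j)) m m i j).trans
      (Finset.sum_add_distrib.trans (congrArg₂ (· + ·) tA1 tA2))
  have tB : cC g (fun j x => ∑ m, Cf g K N X p m m j x) i j y = _ :=
    (congrArg (fun w => cC g w i j y) (tr_Cf hg hK)).trans (cC_add (fun j => f1.fun_mul (fu j))
      (fun j => (f2.fun_mul fs).fun_mul (fl j)) i j)
  rw [cC_smul f1 fu, cC_smul (f2.fun_mul fs) fl, pd_mul f2 fs, d1, d2, k.ds hg, k.cS hg] at tB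
  have tB1 : cC g (cn K X) i j y = ∑ m, X m y * cK g K i j m y +
      ((p i y * cn K X j y - lo g X i y * cn K (hi g p) j y) / N y -
        N y * ∑ m, ∑ l, up g m l y * K y i m * K y l j) := by
    have h := cC_con (g := g) fK k.fX i j
    rw [k.wA hg (fun m x => K x j m) i] at h
    refine h.trans (congrArg₂ _ (Finset.sum_congr rfl fun _ _ => mul_comm _ _) ?_)
    simp only [dt, cn, hi, Finset.mul_sum, hK y j, mul_assoc, mul_left_comm (K y i _)]
  have tC : ∑ l, (∑ m, Cf g K N X p m m l y) * Cf g K N X p l i j y =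
      K y i j / N y ^ 2 * dt (cn K X) X y +
        lo g X i y * lo g X j y / (N y ^ 2 * lam g N X y) * dt (cn K X) (hi g p) y +
        dt p X y * K y i j / (N y ^ 2 * lam g N X y) * (N y ^ 2 - lam g N X y) +
        dt p X y * (lo g X i y * lo g X j y) / (N y * lam g N X y) ^ 2 * dt p X y := by
    rw [sm4 (K y i j / N y ^ 2) (lo g X i y * lo g X j y / (N y ^ 2 * lam g N X y))
      (dt p X y * K y i j / (N y ^ 2 * lam g N X y))
      (dt p X y * (lo g X i y * lo g X j y) / (N y * lam g N X y) ^ 2)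
      (fun m => cn K X m y * X m y) (fun m => cn K X m y * hi g p m y)
      (fun m => lo g X m y * X m y) (fun m => lo g X m y * hi g p m y) fun l => by
        rw [congrFun (congrFun (tr_Cf hg hK) l) y, Cf]
        field_simp
        ring, s4, s5, s8, s1]
  have tD : ∑ m, ∑ l, Cf g K N X p l m i y * Cf g K N X p m l j y =
      cn K X j y / N y ^ 2 * cn K X i y +
        (N y ^ 2 - lam g N X y) * lo g X j y / (N y ^ 2 * lam g N X y) * cn K (hi g p) i y +
        lo g X i y * cn K (hi g p) j y / (N y ^ 2 * lam g N X y) * (N y ^ 2 - lam g N X y) +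
        dt p X y * (lo g X i y * lo g X j y) / (N y * lam g N X y) ^ 2 * dt p X y := by
    rw [sm4 (cn K X j y / N y ^ 2) ((N y ^ 2 - lam g N X y) * lo g X j y / (N y ^ 2 * lam g N X y))
      (lo g X i y * cn K (hi g p) j y / (N y ^ 2 * lam g N X y))
      (dt p X y * (lo g X i y * lo g X j y) / (N y * lam g N X y) ^ 2)
      (fun m => K y i m * X m y) (fun m => K y i m * hi g p m y)
      (fun m => lo g X m y * X m y) (fun m => lo g X m y * hi g p m y) fun m => by
        rw [sm4 (K y i m * X m y / N y ^ 2)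
          (K y i m * hi g p m y * lo g X j y / (N y ^ 2 * lam g N X y))
          (lo g X m y * X m y * lo g X i y / (N y ^ 2 * lam g N X y))
          (lo g X m y * hi g p m y * (lo g X i y * lo g X j y) / (N y * lam g N X y) ^ 2)
          (fun l => K y j l * X l y) (fun l => lo g X l y * X l y)
          (fun l => K y j l * hi g p l y) (fun l => lo g X l y * hi g p l y) fun l => by
            rw [Cf, Cf, hK y m i, hK y l j]
            field_simp
            ring, s6, s8, s7, s1]
        ring, s6, s7, s8, s1]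
  have tP := k.dp i j
  have tP1 : ∑ m, ∑ l, up g m l y * K y i m * a y j l =
      (p j y * cn K X i y - lo g X j y * cn K (hi g p) i y) / N y := by
    rw [sm2 (p j y / N y) (-(lo g X j y / N y)) (fun m => K y i m * X m y)
      (fun m => K y i m * hi g p m y) fun m => by
        rw [sm2 (K y i m * p j y / N y) (-(K y i m * lo g X j y / N y))
          (fun l => up g m l y * lo g X l y) (fun l => up g m l y * p l y)
          fun l => by rw [k.a_eq]; ring]
        have b1 : ∑ l, up g m l y * lo g X l y = X m y := congrFun (congrFun (hi_lo hg X) m) y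
        rw [b1, hi]; ring, s6, s7]
    ring
  simp only [mul_sub (X _ y), Finset.sum_sub_distrib] at tP
  rw [tP1] at tP
  have tP2 : cC g p i j y = _ := tP
  have f3 : Df (fun x => pot g N X x / N x) y := df_of ((k.cd_pot hg).div k.smN h0)
  have f4 : Df (fun x => dt p X x / (N x * pot g N X x)) y :=
    df_of ((cd_dt k.smp k.smX).div (k.smN.mul (k.cd_pot hg)) (mul_ne_zero h0 hV))
  have tH1 : cC g (fun j => pd j (pot g N X)) i j y = _ :=
    (cC_congr (z := fun j x => pot g N X x / N x * p j x +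
      dt p X x / (N x * pot g N X x) * lo g X j x) (fun j => ev.mono fun z kz => kz.dV hg j)
      i j).trans (cC_add (fun j => f3.fun_mul (k.fp j)) (fun j => f4.fun_mul (fl j)) i j)
  rw [cC_smul f3 k.fp, cC_smul f4 fl, pd_div fV k.fN h0,
    pd_div fs (k.fN.fun_mul fV) (mul_ne_zero h0 hV), pd_mul k.fN fV, k.ds hg, k.cS hg, k.dV hg,
    k.dN, s6] at tH1
  have tH2 : ∑ m, Cf g K N X p m i j y * pd m (pot g N X) y =
      -(K y i j * pot g N X y / N y ^ 2) * dt p X y +
        -(K y i j * dt p X y / (N y ^ 2 * pot g N X y)) * (N y ^ 2 - lam g N X y) +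
        -(lo g X i y * lo g X j y * pot g N X y / (N y ^ 2 * lam g N X y)) * dt p (hi g p) y +
        -(lo g X i y * lo g X j y * dt p X y / (N y ^ 2 * lam g N X y * pot g N X y)) *
          dt p X y := by
    rw [sm4 (-(K y i j * pot g N X y / N y ^ 2)) (-(K y i j * dt p X y / (N y ^ 2 * pot g N X y)))
      (-(lo g X i y * lo g X j y * pot g N X y / (N y ^ 2 * lam g N X y)))
      (-(lo g X i y * lo g X j y * dt p X y / (N y ^ 2 * lam g N X y * pot g N X y)))
      (fun m => p m y * X m y) (fun m => lo g X m y * X m y) (fun m => p m y * hi g p m y)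
      (fun m => lo g X m y * hi g p m y) fun m => by
        rw [Cf, k.dV hg]
        field_simp
        ring, s2, s8, s3, s1]
  rw [hess_sub (k.chr_quo hg (hK y)), rc_sub (C := Cf g K N X p) hg
    (fun m i j => ((k.fX m).fun_mul (g1 i j)).fun_add ((fh m).fun_mul (g2 i j)))
    (fun m i j => by rw [Cf, Cf, hK y i j, mul_comm (lo g X i y)])
    (fun m i j => ev.mono fun z kz => kz.chr_quo hg (hK z) m i j), tA, tB, tB1, tC, tD, tH1, tH2,
    tP2, ← k.pot_sq]
  field_simp
  ring

theorem sta : STA := by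
  intro n g K a N X p y hg sK hK ev
  have k := ev.self_of_nhds
  refine ⟨?_, static hg sK hK ev, k.gr_quo hg, k.dens_quo, k.ip_quo hg⟩
  have e : ∀ i, (fun x => dens (quo g N X) x * gr (quo g N X) (pot g N X) i x) =ᶠ[𝓝 y]
      fun x => dens g x * hi g p i x := fun i => ev.mono fun z kz => by
    refine mul_left_cancel₀ (mul_pos kz.pot0 kz.N0).ne' ?_
    linear_combination (N z * gr (quo g N X) (pot g N X) i z) * kz.dens_quo +
      (N z * dens g z) * kz.gr_quo hg i
  have h := hg.dv_chr (df_hi hg k.fp)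
  have h2 : dv g (hi g p) y = 0 := h.trans (k.divp hg)
  rw [dv, div_eq_zero_iff, or_iff_left (hg.dens_pos y).ne'] at h2
  simp only [lap, dv, fun i => pd_congr (e i) i, h2, zero_div]

end Vale.Agent.P366RB
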